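import Vale.Agent.P078.Expected.Leverage.Defs

/-!
Minimal nonnegative solutions on the low sets, the fixed weight and the octave inequality: the
part of the leverage bound which uses no measure.
-/

noncomputable section

open MeasureTheory
open scoped ENNReal

namespace Vale.Agent.P078.Expected.Leverage

universe u

/-- The point indicator in `ℝ≥0∞`. -/
def point {Y : Type u} (x b : Y) : ℝ≥0∞ := Set.indicator {x} (fun _ => 1) b

theorem point_self {Y : Type u} (x : Y) : point x x = 1 := by simp [point]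

theorem point_of_ne {Y : Type u} {x b : Y} (h : b ≠ x) : point x b = 0 := by simp [point, h]

theorem tsum_iSup_mono {β : Type*} {f : ℕ → β → ℝ≥0∞} (h : ∀ b, Monotone fun n => f n b) :
    ∑' b, ⨆ n, f n b = ⨆ n, ∑' b, f n b := by
  simp_rw [ENNReal.tsum_eq_iSup_sum]
  rw [iSup_comm (ι := ℕ)]
  exact iSup_congr fun s => ENNReal.finsetSum_iSup_of_monotone h

theorem rpow_half_sq (x : ℝ≥0∞) : (x ^ 2) ^ (1 / 2 : ℝ) = x := by
  rw [← ENNReal.rpow_natCast, ← ENNReal.rpow_mul]
  norm_num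

theorem sq_rpow_half (x : ℝ≥0∞) : (x ^ (1 / 2 : ℝ)) ^ 2 = x := by
  rw [← ENNReal.rpow_natCast, ← ENNReal.rpow_mul]
  norm_num

/-- The triangle inequality for a finite sum, on a finite set. -/
theorem sqrt_sum_sq_le {ι κ : Type*} (t : Finset ι) (s : Finset κ) (G : κ → ι → ℝ≥0∞) :
    (∑ b ∈ t, (∑ k ∈ s, G k b) ^ 2) ^ (1 / 2 : ℝ) ≤
      ∑ k ∈ s, (∑ b ∈ t, G k b ^ 2) ^ (1 / 2 : ℝ) := by
  classical
  induction s using Finset.induction_on with
  | empty => simp
  | @insert a s ha ih =>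
    simp only [Finset.sum_insert ha]
    refine le_trans ?_ (add_le_add le_rfl ih)
    have := ENNReal.Lp_add_le t (fun b => G a b) (fun b => ∑ k ∈ s, G k b)
      (p := 2) (by norm_num)
    simpa only [ENNReal.rpow_two] using this

/-- The triangle inequality for countable sums, with a weight. -/
theorem sqrt_tsum_sq_le {ι κ : Type*} (W : ι → ℝ≥0∞) (F : κ → ι → ℝ≥0∞) :
    (∑' b, W b * (∑' k, F k b) ^ 2) ^ (1 / 2 : ℝ) ≤
      ∑' k, (∑' b, W b * F k b ^ 2) ^ (1 / 2 : ℝ) := by
  have hsup : ∀ {α : Type _} (f : α → ℝ≥0∞),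
      (⨆ a, f a) ^ (1 / 2 : ℝ) = ⨆ a, f a ^ (1 / 2 : ℝ) := fun f =>
    (ENNReal.orderIsoRpow (1 / 2) (by norm_num)).map_iSup f
  set G : κ → ι → ℝ≥0∞ := fun k b => W b ^ (1 / 2 : ℝ) * F k b with hG
  have e : ∀ k b, W b * F k b ^ 2 = G k b ^ 2 := fun k b => by
    rw [hG, mul_pow, sq_rpow_half]
  have e' : ∀ b, W b * (∑' k, F k b) ^ 2 = (∑' k, G k b) ^ 2 := fun b => by
    rw [hG, ENNReal.tsum_mul_left, mul_pow, sq_rpow_half]
  simp only [e, e']
  rw [ENNReal.tsum_eq_iSup_sum, hsup]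
  refine iSup_le fun t => ?_
  have e2 : ∀ b, (∑' k, G k b) ^ 2 = ⨆ s : Finset κ, (∑ k ∈ s, G k b) ^ 2 := fun b => by
    rw [ENNReal.tsum_eq_iSup_sum, ENNReal.iSup_pow]
  simp only [e2]
  rw [ENNReal.finsetSum_iSup_of_monotone (fun b _ _ hs => by gcongr),
    show ∀ f : Finset κ → ℝ≥0∞, (⨆ a, f a) ^ (1 / 2 : ℝ) = ⨆ a, f a ^ (1 / 2 : ℝ) from
      fun f => (ENNReal.orderIsoRpow (1 / 2) (by norm_num)).map_iSup f]
  exact iSup_le fun s => (sqrt_sum_sq_le t s G).trans
    ((Finset.sum_le_sum fun k _ => ENNReal.rpow_le_rpow (ENNReal.sum_le_tsum _) (by norm_num)).trans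
      (ENNReal.sum_le_tsum _))

variable {Y : Type u} [MeasurableSpace Y] {μ : Measure Y} {Rl : Rel μ} {r : ℕ}

namespace Data

variable (D : Data Rl r)

/-- The summed diagonal. -/
def diag (b : Y) : ℝ≥0∞ := ∑ i, ENNReal.ofReal (D.a i b)

/-- The kernel of one colour in `ℝ≥0∞`. -/
def ker (j : Fin r) (b y : Y) : ℝ≥0∞ := ENNReal.ofReal (D.N j b y)

/-- The summed kernel. -/
def kerSum (b y : Y) : ℝ≥0∞ := ∑ i, D.ker i b y

/-- The approximations of the minimal solution on `E` with source `g`. -/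
def solSeq (E : Set Y) (g : Y → ℝ≥0∞) : ℕ → Y → ℝ≥0∞
  | 0 => 0
  | k + 1 => E.indicator fun b => (g b + ∑' y, D.kerSum b y * solSeq E g k y) / D.diag b

/-- The minimal solution of `diag v - kerSum v = g` on `E` vanishing off `E`. -/
def sol (E : Set Y) (g : Y → ℝ≥0∞) (b : Y) : ℝ≥0∞ := ⨆ k, D.solSeq E g k b

/-- The points at height at most `s`. -/
def low (s : ℝ) : Set Y := {x | D.t x ≤ s}

/-- The solution on the low set driven by one colour from `c`. -/
def hj (j : Fin r) (s : ℝ) (c b : Y) : ℝ≥0∞ := D.sol (D.low s) (fun y => D.ker j y c) b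

/-- All colours together. -/
def hsum (s : ℝ) (c b : Y) : ℝ≥0∞ := ∑ j, D.hj j s c b

/-- The weight of all colours at a point. -/
def wsum (Ω : Fin r → Y → ℝ≥0∞) (b : Y) : ℝ≥0∞ := ∑ i, Ω i b

/-- The square of the weighted length of the solution of one colour from `x`. -/
def Sp (W : Y → ℝ≥0∞) (j : Fin r) (x : Y) : ℝ≥0∞ :=
  ∑' b, W b * D.hj j (D.t x / 2) x b ^ 2

/-- The least admissible weight. -/
def base (j : Fin r) (x : Y) : ℝ≥0∞ := ENNReal.ofReal (D.R j x + D.ζ)

/-- The iteration for the weight. -/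
def omSeq : ℕ → Fin r → Y → ℝ≥0∞
  | 0 => D.base
  | n + 1 => fun j x => min 1 (max (D.base j x) (D.Sp (wsum (omSeq n)) j x ^ (1 / 2 : ℝ)))

/-- The fixed weight in `ℝ≥0∞`. -/
def omE (j : Fin r) (x : Y) : ℝ≥0∞ := ⨆ n, D.omSeq n j x

/-- The fixed weight. -/
def om (j : Fin r) (x : Y) : ℝ := (D.omE j x).toReal

/-- The endpoints of the octaves below one. -/
def oct (m : ℕ) : ℝ := (1 / 2) ^ m

/-- One octave below one. -/
def band (m : ℕ) : Set Y := {x | oct (m + 1) < D.t x ∧ D.t x ≤ oct m}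

/-- The square of the weighted length of the solution of all colours from `x`. -/
def V (W : Y → ℝ≥0∞) (s : ℝ) (x : Y) : ℝ≥0∞ := ∑' b, W b * D.hsum s x b ^ 2

/-- The size of the point `x` of the `m`-th octave in the chaining. -/
def fB (W : Y → ℝ≥0∞) (m : ℕ) (x : Y) : ℝ≥0∞ :=
  (W x + D.V W (oct (m + 1)) x) ^ (1 / 2 : ℝ)

/-! ### The diagonal and the rows -/

theorem diag_ne_zero [NeZero r] (b : Y) : D.diag b ≠ 0 := fun h => by
  have h0 := (Finset.sum_eq_zero_iff.1 h) (0 : Fin r) (Finset.mem_univ _)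
  rw [ENNReal.ofReal_eq_zero] at h0
  linarith [D.a_lower 0 b, D.hτ]

theorem diag_ne_top (b : Y) : D.diag b ≠ ⊤ :=
  ENNReal.sum_ne_top.2 fun _ _ => ENNReal.ofReal_ne_top

theorem tsum_ker_mul_t_le (j : Fin r) (b : Y) :
    ∑' y, D.ker j b y * ENNReal.ofReal (D.t y) ≤
      ENNReal.ofReal (D.a j b) * ENNReal.ofReal (D.t b) := by
  rw [ENNReal.tsum_eq_iSup_sum]
  refine iSup_le fun s => ?_
  have ha : 0 ≤ D.a j b := D.hτ.le.trans (D.a_lower j b)
  simp only [ker, ← ENNReal.ofReal_mul (D.N_nonneg j b _), ← ENNReal.ofReal_mul ha]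
  rw [← ENNReal.ofReal_sum_of_nonneg fun y _ => mul_nonneg (D.N_nonneg j b y) (D.t_pos y).le]
  refine ENNReal.ofReal_le_ofReal ((D.row j b s).trans ?_)
  exact mul_le_mul_of_nonneg_right (by linarith [D.hτ]) (D.t_pos b).le

theorem tsum_kerSum_mul_t_le (b : Y) :
    ∑' y, D.kerSum b y * ENNReal.ofReal (D.t y) ≤ D.diag b * ENNReal.ofReal (D.t b) := by
  simp only [kerSum, Finset.sum_mul]
  rw [Summable.tsum_finsetSum fun _ _ => ENNReal.summable, diag, Finset.sum_mul]
  exact Finset.sum_le_sum fun j _ => D.tsum_ker_mul_t_le j b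

/-! ### Minimal solutions -/

theorem solSeq_succ (E : Set Y) (g : Y → ℝ≥0∞) (k : ℕ) (b : Y) :
    D.solSeq E g (k + 1) b =
      E.indicator (fun b => (g b + ∑' y, D.kerSum b y * D.solSeq E g k y) / D.diag b) b := rfl

theorem solSeq_mono_step (E : Set Y) (g : Y → ℝ≥0∞) :
    ∀ k b, D.solSeq E g k b ≤ D.solSeq E g (k + 1) b
  | 0, b => zero_le
  | k + 1, b => by
    rw [solSeq_succ, solSeq_succ]
    refine Set.indicator_le_indicator ?_
    gcongr with y
    exact solSeq_mono_step E g k y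

theorem solSeq_mono (E : Set Y) (g : Y → ℝ≥0∞) (b : Y) : Monotone fun k => D.solSeq E g k b :=
  monotone_nat_of_le_succ fun k => D.solSeq_mono_step E g k b

theorem solSeq_le_sol (E : Set Y) (g : Y → ℝ≥0∞) (k : ℕ) (b : Y) :
    D.solSeq E g k b ≤ D.sol E g b := le_iSup (fun k => D.solSeq E g k b) k

theorem sol_of_notMem {E : Set Y} (g : Y → ℝ≥0∞) {b : Y} (hb : b ∉ E) : D.sol E g b = 0 := by
  refine iSup_eq_bot.2 fun k => ?_
  cases k with
  | zero => rfl
  | succ k => rw [solSeq_succ, Set.indicator_of_notMem hb]; rfl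

/-- The fixed point equation. -/
theorem sol_eq {E : Set Y} (g : Y → ℝ≥0∞) {b : Y} (hb : b ∈ E) :
    D.sol E g b = (g b + ∑' y, D.kerSum b y * D.sol E g y) / D.diag b := by
  have e1 : D.sol E g b = ⨆ k, D.solSeq E g (k + 1) b :=
    ((D.solSeq_mono E g b).iSup_nat_add 1).symm
  rw [e1]
  simp only [solSeq_succ, Set.indicator_of_mem hb]
  rw [← ENNReal.iSup_div, ← ENNReal.add_iSup]
  simp only [sol, ENNReal.mul_iSup]
  rw [tsum_iSup_mono (f := fun k y => D.kerSum b y * D.solSeq E g k y)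
    (fun y _ _ h => mul_le_mul le_rfl (D.solSeq_mono E g y h) zero_le zero_le)]

/-- The fixed point equation, cleared of the division. -/
theorem sol_mul_diag [NeZero r] {E : Set Y} (g : Y → ℝ≥0∞) {b : Y} (hb : b ∈ E) :
    D.sol E g b * D.diag b = g b + ∑' y, D.kerSum b y * D.sol E g y := by
  rw [D.sol_eq g hb, ENNReal.div_mul_cancel (D.diag_ne_zero b) (D.diag_ne_top b)]

/-- The solution is below every supersolution. -/
theorem sol_le {E : Set Y} {g u : Y → ℝ≥0∞}
    (h : ∀ b ∈ E, (g b + ∑' y, D.kerSum b y * u y) / D.diag b ≤ u b) (b : Y) :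
    D.sol E g b ≤ u b := by
  refine iSup_le fun k => ?_
  induction k generalizing b with
  | zero => exact zero_le
  | succ k ih =>
    rw [solSeq_succ]
    refine Set.indicator_apply_le' (fun hb => ?_) fun _ => zero_le
    refine le_trans ?_ (h b hb)
    gcongr with y
    exact ih y

theorem sol_mono {E E' : Set Y} {g g' : Y → ℝ≥0∞} (hE : E ⊆ E') (hg : ∀ b ∈ E, g b ≤ g' b)
    (b : Y) : D.sol E g b ≤ D.sol E' g' b := by
  refine D.sol_le (fun b hb => ?_) b
  rw [D.sol_eq g' (hE hb)]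
  gcongr
  exact hg b hb

theorem solSeq_scale (Ψ : Y ≃ Y) (hA : ∀ x, D.diag (Ψ x) = D.diag x)
    (hK : ∀ x y, D.kerSum (Ψ x) (Ψ y) = D.kerSum x y) {E E' : Set Y} {g g' : Y → ℝ≥0∞}
    (hE : ∀ x, Ψ x ∈ E' ↔ x ∈ E) (hg : ∀ x, g' (Ψ x) = g x) :
    ∀ k b, D.solSeq E' g' k (Ψ b) = D.solSeq E g k b
  | 0, b => rfl
  | k + 1, b => by
    rw [solSeq_succ, solSeq_succ]
    by_cases hb : b ∈ E
    · rw [Set.indicator_of_mem hb, Set.indicator_of_mem ((hE b).2 hb), hg, hA]
      congr 2
      rw [← Ψ.tsum_eq]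
      exact tsum_congr fun y => by rw [hK, solSeq_scale Ψ hA hK hE hg k y]
    · rw [Set.indicator_of_notMem hb, Set.indicator_of_notMem fun h => hb ((hE b).1 h)]

theorem sol_scale (Ψ : Y ≃ Y) (hA : ∀ x, D.diag (Ψ x) = D.diag x)
    (hK : ∀ x y, D.kerSum (Ψ x) (Ψ y) = D.kerSum x y) {E E' : Set Y} {g g' : Y → ℝ≥0∞}
    (hE : ∀ x, Ψ x ∈ E' ↔ x ∈ E) (hg : ∀ x, g' (Ψ x) = g x) (b : Y) :
    D.sol E' g' (Ψ b) = D.sol E g b :=
  iSup_congr fun k => D.solSeq_scale Ψ hA hK hE hg k b

/-! ### The solutions on the low sets -/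

theorem hj_of_lt (j : Fin r) {s : ℝ} {c b : Y} (hb : s < D.t b) : D.hj j s c b = 0 :=
  D.sol_of_notMem _ (not_le.2 hb)

theorem hsum_of_lt {s : ℝ} {c b : Y} (hb : s < D.t b) : D.hsum s c b = 0 :=
  Finset.sum_eq_zero fun j _ => D.hj_of_lt j hb

theorem hj_mono (j : Fin r) {s s' : ℝ} (h : s ≤ s') (c b : Y) :
    D.hj j s c b ≤ D.hj j s' c b :=
  D.sol_mono (fun _ hx => le_trans hx h) (fun _ _ => le_rfl) b

/-- The equation of `hj`. -/
theorem hj_eq [NeZero r] (j : Fin r) {s : ℝ} (c : Y) {b : Y} (hb : D.t b ≤ s) :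
    D.hj j s c b * D.diag b = D.ker j b c + ∑' y, D.kerSum b y * D.hj j s c y :=
  D.sol_mul_diag _ hb

/-- The heights above `s` weighted by their solutions add up to at most the height. -/
theorem tsum_t_mul_hsum_le (s : ℝ) (b : Y) :
    ∑' c, {c | s < D.t c}.indicator (fun c => ENNReal.ofReal (D.t c) * D.hsum s c b) c ≤
      (D.low s).indicator (fun b => ENNReal.ofReal (D.t b)) b := by
  set T : Y → ℝ≥0∞ := fun c => {c | s < D.t c}.indicator (fun c => ENNReal.ofReal (D.t c)) c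
    with hT
  set u : Fin r → Y → ℕ → Y → ℝ≥0∞ := fun j c =>
    D.solSeq (D.low s) (fun y => D.ker j y c) with hu
  have key : ∀ k b, ∑' c, T c * ∑ j, u j c k b ≤
      (D.low s).indicator (fun b => ENNReal.ofReal (D.t b)) b := by
    intro k
    induction k with
    | zero => intro b; simp [hu, solSeq]
    | succ k ih =>
      intro b
      by_cases hb : b ∈ D.low s
      swap
      · simp [hu, solSeq_succ, Set.indicator_of_notMem hb]
      simp only [hu, solSeq_succ, Set.indicator_of_mem hb]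
      simp only [div_eq_mul_inv, ← Finset.sum_mul, ← mul_assoc]
      rw [ENNReal.tsum_mul_right]
      refine (mul_le_mul ?_ le_rfl zero_le zero_le).trans (?_ :
        D.diag b * ENNReal.ofReal (D.t b) * (D.diag b)⁻¹ ≤ _)
      · refine le_trans ?_ (D.tsum_kerSum_mul_t_le b)
        simp only [Finset.sum_add_distrib, mul_add]
        rw [ENNReal.tsum_add]
        have e1 : ∑' c, T c * ∑ j, D.ker j b c = ∑' c, D.kerSum b c * T c :=
          tsum_congr fun c => mul_comm _ _
        have e2 : ∑' c, T c * ∑ j, ∑' y, D.kerSum b y * u j c k y =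
            ∑' y, D.kerSum b y * ∑' c, T c * ∑ j, u j c k y := by
          simp only [← ENNReal.tsum_mul_left, Finset.mul_sum]
          rw [ENNReal.tsum_comm]
          refine tsum_congr fun c => ?_
          rw [Summable.tsum_finsetSum fun _ _ => ENNReal.summable]
          exact Finset.sum_congr rfl fun j _ => tsum_congr fun y => by ac_rfl
        rw [e1, e2, ← ENNReal.tsum_add]
        refine ENNReal.tsum_le_tsum fun y => ?_
        rw [← mul_add]
        refine mul_le_mul le_rfl ((add_le_add le_rfl (ih y)).trans ?_) zero_le zero_le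
        simp only [hT]
        by_cases hy : D.t y ≤ s
        · simp [low, hy]
        · simp [low, hy, not_le.1 hy]
      · rw [mul_right_comm]
        exact mul_le_of_le_one_left zero_le (ENNReal.mul_inv_le_one _)
  have e : ∀ c, {c | s < D.t c}.indicator (fun c => ENNReal.ofReal (D.t c) * D.hsum s c b) c =
      ⨆ k, T c * ∑ j, u j c k b := fun c => by
    rw [← ENNReal.mul_iSup, ← ENNReal.finsetSum_iSup_of_monotone
      fun j => D.solSeq_mono _ _ b, hT, Set.indicator_mul_left]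
    rfl
  simp only [e]
  rw [tsum_iSup_mono fun c => ?_]
  · exact iSup_le fun k => key k b
  · exact fun k l hkl => mul_le_mul le_rfl
      (Finset.sum_le_sum fun j _ => D.solSeq_mono _ _ b hkl) zero_le zero_le

theorem t_mul_hsum_le {s : ℝ} {c : Y} (hc : s < D.t c) (b : Y) :
    ENNReal.ofReal (D.t c) * D.hsum s c b ≤ ENNReal.ofReal (D.t b) := by
  refine le_trans ?_ ((D.tsum_t_mul_hsum_le s b).trans
    (Set.indicator_le_self' (fun _ _ => zero_le) b))
  refine le_trans (le_of_eq ?_) (ENNReal.le_tsum c)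
  rw [Set.indicator_of_mem (show c ∈ {c | s < D.t c} from hc)]

theorem hsum_ne_top {s : ℝ} {c : Y} (hc : s < D.t c) (b : Y) : D.hsum s c b ≠ ⊤ := fun h => by
  have := D.t_mul_hsum_le hc b
  rw [h, ENNReal.mul_top (by simpa using D.t_pos c)] at this
  exact ENNReal.ofReal_ne_top (top_le_iff.1 this)

theorem hj_le_hsum (j : Fin r) (s : ℝ) (c b : Y) : D.hj j s c b ≤ D.hsum s c b :=
  Finset.single_le_sum (f := fun j => D.hj j s c b) (fun _ _ => zero_le) (Finset.mem_univ j)

theorem hj_ne_top (j : Fin r) {s : ℝ} {c : Y} (hc : s < D.t c) (b : Y) : D.hj j s c b ≠ ⊤ :=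
  ne_top_of_le_ne_top (D.hsum_ne_top hc b) (D.hj_le_hsum j s c b)

/-- The squares of the solutions coming from the top octave. -/
theorem tsum_band_hsum_sq_le (b : Y) :
    ∑' x, (D.band 0).indicator (fun x => D.hsum (oct 1) x b ^ 2) x ≤
      4 * ENNReal.ofReal (D.t b) ^ 2 := by
  set H : Y → ℝ≥0∞ := fun x => (D.band 0).indicator (fun x => D.hsum (oct 1) x b) x with hH
  have h1 : ∑' x, H x ≤ 2 * ENNReal.ofReal (D.t b) := by
    refine le_trans ?_ (mul_le_mul le_rfl ((D.tsum_t_mul_hsum_le (oct 1) b).trans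
      (Set.indicator_le_self' (fun _ _ => zero_le) b)) zero_le zero_le)
    rw [← ENNReal.tsum_mul_left]
    refine ENNReal.tsum_le_tsum fun x => Set.indicator_apply_le' (fun hx => ?_) fun _ => zero_le
    have hx1 : oct 1 < D.t x := hx.1
    rw [Set.indicator_of_mem (show x ∈ {c | oct 1 < D.t c} from hx1), ← mul_assoc]
    refine le_mul_of_one_le_left zero_le ?_
    rw [← ENNReal.ofReal_ofNat, ← ENNReal.ofReal_mul zero_le_two, ENNReal.one_le_ofReal]
    simp only [oct, pow_one] at hx1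
    linarith
  calc ∑' x, (D.band 0).indicator (fun x => D.hsum (oct 1) x b ^ 2) x
      ≤ ∑' x, H x * ∑' y, H y := ENNReal.tsum_le_tsum fun x =>
        Set.indicator_apply_le' (fun hx => by
          have e : H x = D.hsum (oct 1) x b := Set.indicator_of_mem hx _
          rw [sq, ← e]
          exact mul_le_mul le_rfl (ENNReal.le_tsum x) zero_le zero_le) fun _ => zero_le
    _ = (∑' x, H x) * ∑' y, H y := ENNReal.tsum_mul_right
    _ ≤ (2 * ENNReal.ofReal (D.t b)) * (2 * ENNReal.ofReal (D.t b)) := by gcongr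
    _ = _ := by ring

/-- The solution stays in the class of the source. -/
theorem same_of_hj_ne_zero (j : Fin r) {s : ℝ} {c b : Y} (h : D.hj j s c b ≠ 0) :
    Rl.Same c b := by
  classical
  have hsymm : ∀ {x y}, Rl.Same x y → Rl.Same y x := by
    rintro x y ⟨k, hk, rfl⟩
    exact Rl.exists_symm k x hk
  have htrans : ∀ {x y z}, Rl.Same x y → Rl.Same y z → Rl.Same x z := by
    rintro x y z ⟨k, hk, rfl⟩ ⟨l, hl, rfl⟩
    exact Rl.exists_comp k l x hk hl
  have hker : ∀ i x y, D.ker i x y ≠ 0 → Rl.Same x y := fun i x y hxy => by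
    by_contra hn
    exact hxy (by rw [ker, (D.N_kernel i).supp x y hn, ENNReal.ofReal_zero])
  by_contra hn
  refine h (iSup_eq_bot.2 fun k => ?_)
  clear h
  induction k generalizing b with
  | zero => rfl
  | succ k ih =>
    rw [solSeq_succ]
    by_cases hb : b ∈ D.low s
    swap
    · exact Set.indicator_of_notMem hb _
    rw [Set.indicator_of_mem hb]
    have h1 : D.ker j b c = 0 := not_not.1 fun h' => hn (hsymm (hker j b c h'))
    have h2 : ∑' y, D.kerSum b y * D.solSeq (D.low s) (fun y => D.ker j y c) k y = 0 := by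
      refine ENNReal.tsum_eq_zero.2 fun y => ?_
      by_cases hy : Rl.Same c y
      · have : D.kerSum b y = 0 := Finset.sum_eq_zero fun i _ =>
          not_not.1 fun h' => hn (htrans hy (hsymm (hker i b y h')))
        rw [this, zero_mul]
      · simp [ih hy]
    simp [h1, h2]

/-! ### Scalings -/

variable {k : ℝ} {Ψ : Y ≃ Y}

theorem isScale_Φ : D.IsScale 2 D.Φ.toEquiv := ⟨D.t_Φ, D.R_Φ, D.a_Φ, D.N_Φ⟩

theorem IsScale.trans {k' : ℝ} {Ψ' : Y ≃ Y} (h : D.IsScale k Ψ) (h' : D.IsScale k' Ψ') :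
    D.IsScale (k' * k) (Ψ.trans Ψ') := by
  obtain ⟨a1, a2, a3, a4⟩ := h
  obtain ⟨b1, b2, b3, b4⟩ := h'
  refine ⟨fun x => ?_, fun j x => ?_, fun j x => ?_, fun j x y => ?_⟩ <;>
    simp only [Equiv.trans_apply]
  · rw [b1, a1, mul_assoc]
  · rw [b2, a2]
  · rw [b3, a3]
  · rw [b4, a4]

theorem IsScale.diag_eq (h : D.IsScale k Ψ) (x : Y) : D.diag (Ψ x) = D.diag x :=
  Finset.sum_congr rfl fun j _ => by rw [h.2.2.1]

theorem IsScale.ker_eq (h : D.IsScale k Ψ) (j : Fin r) (x y : Y) :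
    D.ker j (Ψ x) (Ψ y) = D.ker j x y := by rw [ker, ker, h.2.2.2]

theorem IsScale.hj_eq (h : D.IsScale k Ψ) (hk : 0 < k) (j : Fin r) (s : ℝ) (c b : Y) :
    D.hj j (k * s) (Ψ c) (Ψ b) = D.hj j s c b :=
  D.sol_scale Ψ (IsScale.diag_eq D h)
    (fun x y => Finset.sum_congr rfl fun i _ => IsScale.ker_eq D h i x y)
    (fun x => by
      change D.t (Ψ x) ≤ k * s ↔ D.t x ≤ s
      rw [h.1]
      exact mul_le_mul_iff_right₀ hk)
    (fun x => IsScale.ker_eq D h j x c) b

theorem IsScale.hsum_eq (h : D.IsScale k Ψ) (hk : 0 < k) (s : ℝ) (c b : Y) :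
    D.hsum (k * s) (Ψ c) (Ψ b) = D.hsum s c b :=
  Finset.sum_congr rfl fun j _ => IsScale.hj_eq D h hk j s c b

theorem IsScale.Sp_eq (h : D.IsScale k Ψ) (hk : 0 < k) {W : Y → ℝ≥0∞}
    (hW : ∀ x, W (Ψ x) = W x) (j : Fin r) (x : Y) : D.Sp W j (Ψ x) = D.Sp W j x := by
  rw [Sp, Sp, ← Ψ.tsum_eq, h.1, mul_div_assoc]
  exact tsum_congr fun b => by rw [hW, IsScale.hj_eq D h hk]

theorem IsScale.V_eq (h : D.IsScale k Ψ) (hk : 0 < k) {W : Y → ℝ≥0∞}
    (hW : ∀ x, W (Ψ x) = W x) (s : ℝ) (x : Y) : D.V W (k * s) (Ψ x) = D.V W s x := by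
  rw [V, V, ← Ψ.tsum_eq]
  exact tsum_congr fun b => by rw [hW, IsScale.hsum_eq D h hk]

/-- Octave `m + 1` is carried to octave `m` by doubling. -/
theorem IsScale.fB_eq (h : D.IsScale 2 Ψ) {W : Y → ℝ≥0∞} (hW : ∀ x, W (Ψ x) = W x) (m : ℕ)
    (x : Y) : D.fB W m (Ψ x) = D.fB W (m + 1) x := by
  rw [fB, fB, hW, show oct (m + 1) = 2 * oct (m + 1 + 1) by rw [oct, oct, pow_succ _ (m + 1)]; ring,
    IsScale.V_eq D h two_pos hW]

/-! ### The weight -/

theorem Sp_mono {W W' : Y → ℝ≥0∞} (h : ∀ b, W b ≤ W' b) (j : Fin r) (x : Y) :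
    D.Sp W j x ≤ D.Sp W' j x :=
  ENNReal.tsum_le_tsum fun b => mul_le_mul (h b) le_rfl zero_le zero_le

theorem base_le_one (j : Fin r) (x : Y) : D.base j x ≤ 1 :=
  ENNReal.ofReal_le_one.2 (by linarith [D.R_le j x, D.hζ1])

theorem omSeq_succ (n : ℕ) (j : Fin r) (x : Y) : D.omSeq (n + 1) j x =
    min 1 (max (D.base j x) (D.Sp (wsum (D.omSeq n)) j x ^ (1 / 2 : ℝ))) := rfl

theorem omSeq_mono_step : ∀ n j x, D.omSeq n j x ≤ D.omSeq (n + 1) j x
  | 0, j, x => le_min (D.base_le_one j x) (le_max_left _ _)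
  | n + 1, j, x => min_le_min le_rfl (max_le_max le_rfl (ENNReal.rpow_le_rpow
      (D.Sp_mono (fun b => Finset.sum_le_sum fun i _ => omSeq_mono_step n i b) j x)
      (by norm_num)))

theorem omSeq_mono (j : Fin r) (x : Y) : Monotone fun n => D.omSeq n j x :=
  monotone_nat_of_le_succ fun n => D.omSeq_mono_step n j x

theorem base_le_omE (j : Fin r) (x : Y) : D.base j x ≤ D.omE j x :=
  le_iSup (fun n => D.omSeq n j x) 0

theorem omE_le_one (j : Fin r) (x : Y) : D.omE j x ≤ 1 := by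
  refine iSup_le fun n => ?_
  cases n with
  | zero => exact D.base_le_one j x
  | succ n => exact min_le_left _ _

theorem omE_ne_top (j : Fin r) (x : Y) : D.omE j x ≠ ⊤ :=
  ne_top_of_le_ne_top ENNReal.one_ne_top (D.omE_le_one j x)

theorem Sp_iSup (j : Fin r) (x : Y) :
    D.Sp (wsum D.omE) j x = ⨆ n, D.Sp (wsum (D.omSeq n)) j x := by
  have e : ∀ b, wsum D.omE b = ⨆ n, wsum (D.omSeq n) b := fun b => by
    simp only [wsum, omE]
    exact ENNReal.finsetSum_iSup_of_monotone fun i => D.omSeq_mono i b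
  simp only [Sp, e, ENNReal.iSup_mul]
  exact tsum_iSup_mono fun b m n hmn => mul_le_mul
    (Finset.sum_le_sum fun i _ => D.omSeq_mono i b hmn) le_rfl zero_le zero_le

/-- The weight is a fixed point. -/
theorem omE_eq (j : Fin r) (x : Y) :
    D.omE j x = min 1 (max (D.base j x) (D.Sp (wsum D.omE) j x ^ (1 / 2 : ℝ))) := by
  rw [D.Sp_iSup, show (⨆ n, D.Sp (wsum (D.omSeq n)) j x) ^ (1 / 2 : ℝ) =
      ⨆ n, D.Sp (wsum (D.omSeq n)) j x ^ (1 / 2 : ℝ) from
        (ENNReal.orderIsoRpow (1 / 2) (by norm_num)).map_iSup _, sup_iSup, inf_iSup_eq,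
    omE, ← (D.omSeq_mono j x).iSup_nat_add 1]
  rfl

theorem ofReal_om (j : Fin r) (x : Y) : ENNReal.ofReal (D.om j x) = D.omE j x :=
  ENNReal.ofReal_toReal (D.omE_ne_top j x)

theorem le_om (j : Fin r) (x : Y) : D.R j x + D.ζ ≤ D.om j x := by
  refine (ENNReal.ofReal_le_ofReal_iff ENNReal.toReal_nonneg).1 ?_
  rw [show ENNReal.ofReal ((D.omE j x).toReal) = _ from D.ofReal_om j x]
  exact D.base_le_omE j x

theorem om_le_one (j : Fin r) (x : Y) : D.om j x ≤ 1 := by
  have := ENNReal.toReal_mono ENNReal.one_ne_top (D.omE_le_one j x)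
  rwa [ENNReal.toReal_one] at this

/-- The summed weight. -/
def omW (b : Y) : ℝ≥0∞ := ∑ i, ENNReal.ofReal (D.om i b)

theorem omW_eq : D.omW = wsum D.omE := funext fun b =>
  Finset.sum_congr rfl fun i _ => D.ofReal_om i b

theorem le_omW (b : Y) : ENNReal.ofReal (r * D.ζ) ≤ D.omW b := by
  refine le_trans (le_of_eq ?_) (Finset.sum_le_sum fun i _ => ENNReal.ofReal_le_ofReal
    (show D.ζ ≤ D.om i b by linarith [D.le_om i b, D.R_nonneg i b]))
  simp [ENNReal.ofReal_mul]

theorem omW_ne_top (b : Y) : D.omW b ≠ ⊤ := ENNReal.sum_ne_top.2 fun _ _ => ENNReal.ofReal_ne_top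

theorem om_le_max (j : Fin r) (x : Y) :
    ENNReal.ofReal (D.om j x) ≤ max (D.base j x) (D.Sp D.omW j x ^ (1 / 2 : ℝ)) := by
  rw [ofReal_om, omE_eq, omW_eq]
  exact min_le_right _ _

theorem min_le_om (j : Fin r) (x : Y) :
    min 1 (D.Sp D.omW j x ^ (1 / 2 : ℝ)) ≤ ENNReal.ofReal (D.om j x) := by
  rw [ofReal_om, omE_eq, omW_eq]
  exact min_le_min le_rfl (le_max_right _ _)

theorem IsScale.omSeq_eq (h : D.IsScale k Ψ) (hk : 0 < k) :
    ∀ n j x, D.omSeq n j (Ψ x) = D.omSeq n j x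
  | 0, j, x => by
    change ENNReal.ofReal (D.R j (Ψ x) + D.ζ) = _
    rw [h.2.1]
    rfl
  | n + 1, j, x => by
    rw [omSeq_succ, omSeq_succ, show D.base j (Ψ x) = D.base j x by rw [base, base, h.2.1],
      IsScale.Sp_eq D h hk
        (fun b => Finset.sum_congr rfl fun i _ => IsScale.omSeq_eq h hk n i b) j x]

theorem om_scale (hk : 0 < k) (h : D.IsScale k Ψ) (j : Fin r) (x : Y) :
    D.om j (Ψ x) = D.om j x :=
  congrArg ENNReal.toReal (iSup_congr fun n => IsScale.omSeq_eq D h hk n j x)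

theorem omW_scale (hk : 0 < k) (h : D.IsScale k Ψ) (x : Y) : D.omW (Ψ x) = D.omW x :=
  Finset.sum_congr rfl fun i _ => by rw [D.om_scale hk h]

/-! ### The octave inequality -/

/-- Restarting a solution on a smaller set at the points left out. -/
theorem sol_le_restart [NeZero r] {E E' : Set Y} (hE : E' ⊆ E) (g : Y → ℝ≥0∞) {b : Y}
    (hb : b ∈ E') :
    D.sol E g b ≤ D.sol E' g b +
      ∑' x, (E \ E').indicator
        (fun x => D.sol E g x * ∑ i, D.sol E' (fun y => D.ker i y x) b) x := by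
  classical
  set P : Y → Y → ℝ≥0∞ := fun b x => (E \ E').indicator
    (fun x => D.sol E g x * ∑ i, D.sol E' (fun y => D.ker i y x) b) x with hP
  set u : Y → ℝ≥0∞ := fun y =>
    D.sol E' g y + ∑' x, P y x + (E \ E').indicator (D.sol E g) y with hu
  have hle : ∀ k y, D.solSeq E g k y ≤ u y := by
    intro k
    induction k with
    | zero => exact fun y => zero_le
    | succ k ih =>
      intro c
      by_cases hc' : c ∈ E'
      swap
      · by_cases hc : c ∈ E
        · refine (D.solSeq_le_sol E g (k + 1) c).trans ?_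
          simp only [hu, Set.indicator_of_mem (show c ∈ E \ E' from ⟨hc, hc'⟩)]
          exact le_add_self
        · rw [solSeq_succ, Set.indicator_of_notMem hc]
          exact zero_le
      have hc : c ∈ E := hE hc'
      rw [solSeq_succ, Set.indicator_of_mem hc]
      refine (ENNReal.div_le_div_right (add_le_add le_rfl
        (ENNReal.tsum_le_tsum fun y => mul_le_mul le_rfl (ih y) zero_le zero_le)) _).trans ?_
      refine le_of_eq ?_
      have e0 : u c = D.sol E' g c + ∑' x, P c x := by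
        simp only [hu, Set.indicator_of_notMem (fun h : c ∈ E \ E' => h.2 hc'), add_zero]
      rw [e0, D.sol_eq g hc']
      have eP : ∀ x, P c x = ((∑' y, D.kerSum c y * P y x) +
          D.kerSum c x * (E \ E').indicator (D.sol E g) x) / D.diag c := by
        intro x
        by_cases hx : x ∈ E \ E'
        · simp only [hP, Set.indicator_of_mem hx, kerSum]
          simp only [D.sol_eq (fun y => D.ker _ y x) hc', div_eq_mul_inv, ← Finset.sum_mul,
            Finset.sum_add_distrib]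
          rw [← Summable.tsum_finsetSum fun _ _ => ENNReal.summable]
          simp only [Finset.mul_sum, ← mul_assoc, mul_add, ← ENNReal.tsum_mul_left, Finset.sum_mul,
            kerSum]
          ring_nf
        · simp [hP, Set.indicator_of_notMem hx]
      rw [show ∑' x, P c x = ∑' x, ((∑' y, D.kerSum c y * P y x) +
          D.kerSum c x * (E \ E').indicator (D.sol E g) x) / D.diag c from tsum_congr eP]
      simp only [hu, div_eq_mul_inv, mul_add, ENNReal.tsum_add, ENNReal.tsum_mul_right,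
        ← ENNReal.tsum_mul_left, ← add_mul]
      rw [ENNReal.tsum_comm (f := fun y x => D.kerSum c y * P y x)]
      ring
  have h1 : D.sol E g b ≤ u b := iSup_le fun k => hle k b
  simpa [hu, hP, Set.indicator_of_notMem (fun h : b ∈ E \ E' => h.2 hb)] using h1

/-- One step of the chaining. -/
theorem hj_oct_step [NeZero r] (j : Fin r) (m : ℕ) (c : Y) {b : Y} (hb : D.t b ≤ oct (m + 1)) :
    D.hj j (oct m) c b ≤ D.hj j (oct (m + 1)) c b +
      ∑' x, (D.band m).indicator
        (fun x => D.hj j (oct m) c x * D.hsum (oct (m + 1)) x b) x := by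
  have hmono : oct (m + 1) ≤ oct m := by
    rw [oct, oct, pow_succ]
    exact mul_le_of_le_one_right (by positivity) (by norm_num)
  have e : D.low (oct m) \ D.low (oct (m + 1)) = D.band m := by
    ext x
    simp only [low, band, Set.mem_sdiff, Set.mem_ofPred_eq, not_le]
    exact and_comm
  have h := D.sol_le_restart (E := D.low (oct m)) (E' := D.low (oct (m + 1)))
    (fun _ hx => le_trans hx hmono) (fun y => D.ker j y c) hb
  rw [e] at h
  exact h

/-- The solution below one, split over the octaves. -/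
theorem hj_one_le [NeZero r] (j : Fin r) (c b : Y) :
    D.hj j 1 c b ≤ ∑' m, ∑' x, (D.band m).indicator
      (fun x => D.hj j (oct m) c x * (point x b + D.hsum (oct (m + 1)) x b)) x := by
  classical
  by_cases hb : 1 < D.t b
  · rw [D.hj_of_lt j hb]; exact zero_le
  obtain ⟨M, hM1, hM2⟩ := exists_nat_pow_near_of_lt_one (D.t_pos b) (not_lt.1 hb)
    (by norm_num : (0 : ℝ) < 1 / 2) (by norm_num)
  have key : ∀ n ≤ M, D.hj j 1 c b ≤ D.hj j (oct n) c b + ∑ m ∈ Finset.range n,
      ∑' x, (D.band m).indicator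
        (fun x => D.hj j (oct m) c x * D.hsum (oct (m + 1)) x b) x := by
    intro n hn
    induction n with
    | zero => simp [oct]
    | succ n ih =>
      refine (ih (by omega)).trans ?_
      rw [Finset.sum_range_succ, add_left_comm, ← add_assoc, add_comm (D.hj j (oct n) c b)]
      refine (add_le_add le_rfl (D.hj_oct_step j n c (le_trans hM2 ?_))).trans_eq (by abel)
      exact pow_le_pow_of_le_one (by norm_num) (by norm_num) hn
  refine (key M le_rfl).trans ?_
  refine le_trans ?_ (ENNReal.sum_le_tsum (Finset.range (M + 1)))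
  rw [Finset.sum_range_succ, add_comm]
  refine add_le_add (Finset.sum_le_sum fun m _ => ENNReal.tsum_le_tsum fun x => ?_) ?_
  · refine Set.indicator_le_indicator ?_
    gcongr
    exact le_add_self
  · refine le_trans ?_ (ENNReal.le_tsum b)
    rw [Set.indicator_of_mem (show b ∈ D.band M from ⟨hM1, hM2⟩), point_self, mul_add, mul_one]
    exact le_self_add

/-- The lengths of the colours at a point of the window are bounded by the chaining. -/
theorem sum_sqrt_Sp_le [NeZero r] (W : Y → ℝ≥0∞) {c : Y} (hc : c ∈ D.window) :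
    ∑ j, D.Sp W j c ^ (1 / 2 : ℝ) ≤
      ∑' m, ∑' x, (D.band m).indicator (fun x => D.hsum (oct m) c x * D.fB W m x) x := by
  classical
  have hj1 : ∀ j, D.Sp W j c ^ (1 / 2 : ℝ) ≤
      ∑' m, ∑' x, (D.band m).indicator (fun x => D.hj j (oct m) c x * D.fB W m x) x := by
    intro j
    set F : ℕ × Y → Y → ℝ≥0∞ := fun p b => (D.band p.1).indicator
      (fun x => D.hj j (oct p.1) c x * (point x b + D.hsum (oct (p.1 + 1)) x b)) p.2 with hF
    have h1 : ∀ b, D.hj j (D.t c / 2) c b ≤ ∑' p, F p b := fun b => by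
      refine ((D.hj_mono j (by linarith [hc.2]) c b).trans (D.hj_one_le j c b)).trans_eq ?_
      rw [ENNReal.tsum_prod']
    refine (ENNReal.rpow_le_rpow (ENNReal.tsum_le_tsum fun b =>
      mul_le_mul le_rfl (pow_le_pow_left₀ zero_le (h1 b) 2) zero_le zero_le)
      (by norm_num)).trans ((sqrt_tsum_sq_le W F).trans ?_)
    rw [ENNReal.tsum_prod']
    refine ENNReal.tsum_le_tsum fun m => ENNReal.tsum_le_tsum fun x => ?_
    simp only [hF]
    by_cases hx : x ∈ D.band m
    swap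
    · simp [Set.indicator_of_notMem hx]
    simp only [Set.indicator_of_mem hx]
    have e : ∑' b, W b * (D.hj j (oct m) c x * (point x b + D.hsum (oct (m + 1)) x b)) ^ 2 =
        D.hj j (oct m) c x ^ 2 * (W x + D.V W (oct (m + 1)) x) := by
      rw [V, mul_add, ← ENNReal.tsum_mul_left, ← tsum_ite_eq x
        (fun _ => D.hj j (oct m) c x ^ 2 * W x), ← ENNReal.tsum_add]
      refine tsum_congr fun b => ?_
      rcases eq_or_ne b x with rfl | hbx
      · rw [if_pos rfl, point_self, D.hsum_of_lt hx.1]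
        ring
      · rw [if_neg hbx, point_of_ne hbx]
        ring
    rw [e, ENNReal.mul_rpow_of_nonneg _ _ (by norm_num : (0 : ℝ) ≤ 1 / 2), rpow_half_sq]
    rfl
  refine (Finset.sum_le_sum fun j _ => hj1 j).trans_eq ?_
  rw [← Summable.tsum_finsetSum fun _ _ => ENNReal.summable]
  refine tsum_congr fun m => ?_
  rw [← Summable.tsum_finsetSum fun _ _ => ENNReal.summable]
  refine tsum_congr fun x => ?_
  by_cases hx : x ∈ D.band m
  · simp only [Set.indicator_of_mem hx, hsum, Finset.sum_mul]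
  · simp [Set.indicator_of_notMem hx]

/-- The square root of a sum, linearised. -/
theorem sqrt_add_le {W V : ℝ≥0∞} {S : ℝ} (hS : 0 < S) (hW : ENNReal.ofReal S ≤ W) (hW' : W ≠ ⊤) :
    (W + V) ^ (1 / 2 : ℝ) ≤ W ^ (1 / 2 : ℝ) + V / ENNReal.ofReal (2 * √S) := by
  rcases eq_or_ne V ⊤ with rfl | hV
  · rw [ENNReal.top_div_of_ne_top ENNReal.ofReal_ne_top, add_top, add_top]
    exact le_top
  obtain ⟨w, rfl⟩ : ∃ w : ℝ, W = ENNReal.ofReal w := ⟨_, (ENNReal.ofReal_toReal hW').symm⟩
  obtain ⟨v, hv, rfl⟩ : ∃ v : ℝ, 0 ≤ v ∧ V = ENNReal.ofReal v :=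
    ⟨_, ENNReal.toReal_nonneg, (ENNReal.ofReal_toReal hV).symm⟩
  have hSw : S ≤ w := by
    rcases le_or_gt w 0 with h | h
    · rw [ENNReal.ofReal_of_nonpos h, nonpos_iff_eq_zero, ENNReal.ofReal_eq_zero] at hW
      linarith
    · exact (ENNReal.ofReal_le_ofReal_iff h.le).1 hW
  have hw : 0 < w := hS.trans_le hSw
  have h2 : 0 < 2 * √S := mul_pos two_pos (Real.sqrt_pos.2 hS)
  rw [← ENNReal.ofReal_add hw.le hv, ← ENNReal.ofReal_div_of_pos h2,
    ENNReal.ofReal_rpow_of_nonneg (add_nonneg hw.le hv) (by norm_num),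
    ENNReal.ofReal_rpow_of_nonneg hw.le (by norm_num),
    ← ENNReal.ofReal_add (by positivity) (div_nonneg hv h2.le)]
  refine ENNReal.ofReal_le_ofReal ?_
  rw [← Real.sqrt_eq_rpow, ← Real.sqrt_eq_rpow, Real.sqrt_le_left (by positivity), add_sq,
    Real.sq_sqrt hw.le]
  have h3 : v ≤ 2 * √w * (v / (2 * √S)) := by
    rw [mul_div_assoc', le_div_iff₀ h2, mul_comm v]
    exact mul_le_mul_of_nonneg_right
      (mul_le_mul_of_nonneg_left (Real.sqrt_le_sqrt hSw) zero_le_two) hv
  nlinarith [sq_nonneg (v / (2 * √S))]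

/-- Doubling carries octave `m + 1` to octave `m`. -/
theorem Φ_mem_band (m : ℕ) (x : Y) : D.Φ x ∈ D.band m ↔ x ∈ D.band (m + 1) := by
  simp only [band, Set.mem_ofPred_eq, D.t_Φ, oct, pow_succ]
  constructor <;> rintro ⟨h1, h2⟩ <;> constructor <;> linarith

/-- Doubling and the solutions on the octaves. -/
theorem hsum_oct_Φ (m : ℕ) (c x : Y) :
    D.hsum (oct m) (D.Φ c) (D.Φ x) = D.hsum (oct (m + 1)) c x := by
  have h := IsScale.hsum_eq D D.isScale_Φ two_pos (oct (m + 1)) c x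
  rwa [show 2 * oct (m + 1) = oct m by rw [oct, oct, pow_succ]; ring] at h

/-- The capped lengths and the excess of the weight are below the length. -/
theorem psi_excess_le (j : Fin r) (x : Y) :
    ENNReal.ofReal (D.R j x / D.om j x) *
        min 1 (2 * D.Sp D.omW j x / ENNReal.ofReal (D.om j x)) +
      ENNReal.ofReal (D.om j x - D.R j x - D.ζ) ≤ 3 * D.Sp D.omW j x ^ (1 / 2 : ℝ) := by
  set σ := D.Sp D.omW j x ^ (1 / 2 : ℝ) with hσ
  have hS : D.Sp D.omW j x = σ ^ 2 := (sq_rpow_half _).symm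
  have hb := D.le_om j x
  have hR := D.R_nonneg j x
  have hω : 0 < D.om j x := by linarith [D.hζ]
  have hex : ENNReal.ofReal (D.om j x - D.R j x - D.ζ) ≤ σ := by
    have h := D.om_le_max j x
    rw [← hσ] at h
    rcases le_max_iff.1 h with h | h
    · rw [base, ENNReal.ofReal_le_ofReal_iff (by linarith [D.hζ])] at h
      rw [ENNReal.ofReal_of_nonpos (by linarith)]
      exact zero_le
    · exact (ENNReal.ofReal_le_ofReal (by linarith [D.hζ])).trans h
  have hψ : ENNReal.ofReal (D.R j x / D.om j x) ≤ 1 :=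
    ENNReal.ofReal_le_one.2 ((div_le_one hω).2 (by linarith [D.hζ]))
  have hmin : min 1 (2 * D.Sp D.omW j x / ENNReal.ofReal (D.om j x)) ≤ 2 * σ := by
    rcases le_total 1 σ with h | h
    · exact (min_le_left _ _).trans (h.trans (le_mul_of_one_le_left zero_le one_le_two))
    · refine (min_le_right _ _).trans (ENNReal.div_le_of_le_mul ?_)
      have h' := D.min_le_om j x
      rw [← hσ, min_eq_right h] at h'
      rw [hS, sq, mul_assoc]
      exact mul_le_mul le_rfl (mul_le_mul le_rfl h' zero_le zero_le) zero_le zero_le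
  refine (add_le_add ((mul_le_mul hψ hmin zero_le zero_le).trans_eq (one_mul _)) hex).trans_eq ?_
  ring

end Data

end Vale.Agent.P078.Expected.Leverage
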