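import Vale.Agent.P078.Expected.Leverage.Rel
import Vale.Agent.P078.Expected.Leverage.Sol

/-!
Measurability of the minimal solutions and of the weight, and the integral form of the octave
inequality.
-/

noncomputable section

open MeasureTheory
open scoped ENNReal

namespace Vale.Agent.P078.Expected.Leverage

universe u

variable {Y : Type u} [MeasurableSpace Y] {μ : Measure Y} {Rl : Rel μ}

namespace Rel

theorem Meas.zero_fun : Rl.Meas fun _ _ : Y => (0 : ℝ≥0∞) :=
  ⟨fun _ _ _ => rfl, fun k => by simp [Set.indicator_zero]⟩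

theorem Meas.add_fun {F G : Y → Y → ℝ≥0∞} (hF : Rl.Meas F) (hG : Rl.Meas G) :
    Rl.Meas fun x y => F x y + G x y :=
  hF.map₂ hG (φ := fun a b => a + b) (measurable_fst.add measurable_snd) (add_zero 0)

theorem Meas.finset_sum {ι : Type*} (s : Finset ι) {F : ι → Y → Y → ℝ≥0∞}
    (hF : ∀ i, Rl.Meas (F i)) : Rl.Meas fun x y => ∑ i ∈ s, F i x y := by
  classical
  induction s using Finset.induction_on with
  | empty => simpa using (Meas.zero_fun (Rl := Rl))
  | @insert a s ha ih =>
    simp only [Finset.sum_insert ha]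
    exact (hF a).add_fun ih

theorem Meas.iSup_fun {F : ℕ → Y → Y → ℝ≥0∞} (hF : ∀ n, Rl.Meas (F n)) :
    Rl.Meas fun x y => ⨆ n, F n x y := by
  refine ⟨fun x y h => by simp [(hF _).supp x y h], fun k => ?_⟩
  have e : ((Rl.map k).source.indicator fun x => ⨆ n, F n x (Rl.app k x)) =
      fun x => ⨆ n, (Rl.map k).source.indicator (fun x => F n x (Rl.app k x)) x := by
    funext x
    by_cases hx : x ∈ (Rl.map k).source <;> simp [hx]
  rw [e]
  exact Measurable.iSup fun n => (hF n).meas k

/-- Keeping the pairs on one side of a threshold. -/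
theorem Meas.cut {F : Y → Y → ℝ≥0∞} (hF : Rl.Meas F) {f σ : Y → ℝ} (hf : Measurable f)
    (hσ : Measurable σ) : Rl.Meas fun x y => {y | f y ≤ σ x}.indicator (fun y => F x y) y := by
  refine ⟨fun x y h => by simp [Set.indicator, hF.supp x y h], fun k => ?_⟩
  have e : ((Rl.map k).source.indicator fun x =>
      {y | f y ≤ σ x}.indicator (fun y => F x y) (Rl.app k x)) =
      {x | f (Rl.app k x) ≤ σ x}.indicator
        ((Rl.map k).source.indicator fun x => F x (Rl.app k x)) := by
    funext x
    by_cases hx : x ∈ (Rl.map k).source <;> by_cases hs : f (Rl.app k x) ≤ σ x <;>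
      simp [Set.indicator, hx, hs]
  rw [e]
  exact (hF.meas k).indicator (measurableSet_le (hf.comp (Rl.measurable_app k)) hσ)

/-- Products along the classes in `ℝ≥0∞`. -/
theorem Meas.tsum_mul' {F G : Y → Y → ℝ≥0∞} (hF : Rl.Meas F) (hG : Rl.Meas G) :
    Rl.Meas fun x y => ∑' z, F x z * G z y := by
  classical
  refine ⟨fun x y h => ?_, fun k => ?_⟩
  · refine ENNReal.tsum_eq_zero.2 fun z => ?_
    by_cases hxz : Rl.Same x z
    · rw [hG.supp z y fun hzy => h (Rl.same_trans hxz hzy), mul_zero]
    · rw [hF.supp x z hxz, zero_mul]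
  have e : ((Rl.map k).source.indicator fun x => ∑' z, F x z * G z (Rl.app k x)) =
      fun x => ∑' l, (Rl.first l).indicator (fun x => F x (Rl.app l x)) x *
        ((Rl.map l).source ∩ (Rl.map k).source).indicator
          (fun x => G (Rl.app l x) (Rl.app k x)) x := by
    funext x
    by_cases hx : x ∈ (Rl.map k).source
    · rw [Set.indicator_of_mem hx, Rl.tsum_class (f := fun z => F x z * G z (Rl.app k x))
        fun z hz => by rw [hF.supp x z hz, zero_mul]]
      refine tsum_congr fun l => ?_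
      by_cases hl : x ∈ Rl.first l
      · simp [Set.indicator, hl, hx, Rl.first_subset l hl]
      · simp [Set.indicator, hl]
    · rw [Set.indicator_of_notMem hx]
      refine (ENNReal.tsum_eq_zero.2 fun l => ?_).symm
      rw [Set.indicator_of_notMem (fun h : x ∈ (Rl.map l).source ∩ (Rl.map k).source => hx h.2),
        mul_zero]
  rw [e]
  exact Measurable.tsum fun l => (hF.measurable_first l).mul (hG.measurable_pair l k)

end Rel

variable {r : ℕ}

namespace Data

variable (D : Data Rl r)

theorem measurable_diag : Measurable D.diag :=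
  Finset.measurable_sum _ fun i _ => ENNReal.measurable_ofReal.comp (D.a_meas i)

theorem measurableSet_band (m : ℕ) : MeasurableSet (D.band m) :=
  (measurableSet_lt measurable_const D.t_meas).inter (measurableSet_le D.t_meas measurable_const)

theorem measurableSet_window : MeasurableSet D.window :=
  (measurableSet_lt measurable_const D.t_meas).inter (measurableSet_le D.t_meas measurable_const)

theorem meas_ker (j : Fin r) : Rl.Meas (D.ker j) :=
  (D.N_kernel j).toMeas.comp ENNReal.measurable_ofReal ENNReal.ofReal_zero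

theorem meas_solSeq (j : Fin r) {σ : Y → ℝ} (hσ : Measurable σ) :
    ∀ k, Rl.Meas fun c b => D.solSeq (D.low (σ c)) (fun y => D.ker j y c) k b
  | 0 => Rel.Meas.zero_fun
  | k + 1 => by
    have hK : Rl.Meas fun y b => D.kerSum b y :=
      Rel.Meas.finset_sum _ fun i => (D.meas_ker i).transpose
    have h := (((D.meas_ker j).transpose.add_fun
      ((meas_solSeq j hσ k).tsum_mul' hK)).right D.measurable_diag
        (φ := fun d v => v / d) (measurable_snd.div measurable_fst)
        (fun _ => ENNReal.zero_div)).cut D.t_meas hσ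
    have e : (fun c b => D.solSeq (D.low (σ c)) (fun y => D.ker j y c) (k + 1) b) = fun c b =>
        {b | D.t b ≤ σ c}.indicator (fun b => (D.ker j b c + ∑' y,
          D.solSeq (D.low (σ c)) (fun y => D.ker j y c) k y * D.kerSum b y) / D.diag b) b := by
      funext c b
      simp only [solSeq_succ, low, mul_comm]
    rw [e]
    exact h

theorem meas_hj (j : Fin r) {σ : Y → ℝ} (hσ : Measurable σ) :
    Rl.Meas fun c b => D.hj j (σ c) c b := Rel.Meas.iSup_fun (D.meas_solSeq j hσ)

theorem meas_hsum (s : ℝ) : Rl.Meas (D.hsum s) :=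
  Rel.Meas.finset_sum _ fun j => D.meas_hj j (σ := fun _ => s) measurable_const

theorem measurable_Sp {W : Y → ℝ≥0∞} (hW : Measurable W) (j : Fin r) :
    Measurable (D.Sp W j) :=
  (((D.meas_hj j (D.t_meas.div_const 2)).comp (φ := fun x : ℝ≥0∞ => x ^ 2)
    (measurable_id.pow_const 2) (zero_pow two_ne_zero)).right hW
      (φ := fun w v => w * v) (measurable_fst.mul measurable_snd) mul_zero).measurable_tsum

theorem measurable_V {W : Y → ℝ≥0∞} (hW : Measurable W) (s : ℝ) : Measurable (D.V W s) :=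
  (((D.meas_hsum s).comp (φ := fun x : ℝ≥0∞ => x ^ 2)
    (measurable_id.pow_const 2) (zero_pow two_ne_zero)).right hW
      (φ := fun w v => w * v) (measurable_fst.mul measurable_snd) mul_zero).measurable_tsum

theorem measurable_fB {W : Y → ℝ≥0∞} (hW : Measurable W) (m : ℕ) : Measurable (D.fB W m) :=
  (hW.add (D.measurable_V hW _)).pow_const _

theorem measurable_omSeq : ∀ n j, Measurable (D.omSeq n j)
  | 0, j => ENNReal.measurable_ofReal.comp ((D.R_meas j).add measurable_const)
  | n + 1, j => measurable_const.min ((measurable_omSeq 0 j).max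
      ((D.measurable_Sp (Finset.measurable_sum _ fun i _ => measurable_omSeq n i) j).pow_const _))

theorem measurable_om (j : Fin r) : Measurable (D.om j) :=
  ENNReal.measurable_toReal.comp (Measurable.iSup fun n => D.measurable_omSeq n j)

theorem measurable_omW : Measurable D.omW :=
  Finset.measurable_sum _ fun i _ => ENNReal.measurable_ofReal.comp (D.measurable_om i)

/-! ### Doubling -/

/-- Doubling halves no mass. -/
theorem lintegral_comp_Φ (g : Y → ℝ≥0∞) :
    ∫⁻ x, g (D.Φ x) ∂μ = 2 * ∫⁻ x, g x ∂μ := by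
  rw [← lintegral_map_equiv g D.Φ, D.μ_Φ, lintegral_smul_measure]
  rfl

theorem setLIntegral_band_succ {g : Y → ℝ≥0∞} (hg : ∀ x, g (D.Φ x) = g x) (m : ℕ) :
    ∫⁻ x in D.band (m + 1), g x ∂μ = 2 * ∫⁻ x in D.band m, g x ∂μ := by
  rw [← lintegral_indicator (D.measurableSet_band _), ← lintegral_indicator (D.measurableSet_band _),
    ← D.lintegral_comp_Φ]
  refine lintegral_congr fun x => ?_
  by_cases hx : x ∈ D.band (m + 1)
  · rw [Set.indicator_of_mem hx, Set.indicator_of_mem ((D.Φ_mem_band m x).2 hx), hg]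
  · rw [Set.indicator_of_notMem hx, Set.indicator_of_notMem fun h => hx ((D.Φ_mem_band m x).1 h)]

theorem setLIntegral_band {g : Y → ℝ≥0∞} (hg : ∀ x, g (D.Φ x) = g x) (m : ℕ) :
    ∫⁻ x in D.band m, g x ∂μ = 2 ^ (m + 1) * ∫⁻ x in D.window, g x ∂μ := by
  induction m with
  | zero =>
    rw [pow_one, ← lintegral_indicator (D.measurableSet_band _),
      ← lintegral_indicator D.measurableSet_window, ← D.lintegral_comp_Φ]
    refine lintegral_congr fun x => ?_
    have e : D.Φ x ∈ D.window ↔ x ∈ D.band 0 := by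
      simp only [window, band, oct, Set.mem_ofPred_eq, D.t_Φ, pow_zero, pow_one, zero_add]
      constructor <;> rintro ⟨h1, h2⟩ <;> constructor <;> linarith
    by_cases hx : x ∈ D.band 0
    · rw [Set.indicator_of_mem hx, Set.indicator_of_mem (e.2 hx), hg]
    · rw [Set.indicator_of_notMem hx, Set.indicator_of_notMem fun h => hx (e.1 h)]
  | succ m ih => rw [D.setLIntegral_band_succ hg, ih, pow_succ _ (m + 1)]; ring

/-- The octave `n` above one. -/
def above (n : ℕ) : Set Y := {x | 2 ^ n < D.t x ∧ D.t x ≤ 2 ^ (n + 1)}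

theorem measurableSet_above (n : ℕ) : MeasurableSet (D.above n) :=
  (measurableSet_lt measurable_const D.t_meas).inter (measurableSet_le D.t_meas measurable_const)

theorem above_zero : D.above 0 = D.window := by simp [above, window]

/-- The chaining sum of octave `m` seen from the point `c`. -/
def chain (W : Y → ℝ≥0∞) (m : ℕ) (c : Y) : ℝ≥0∞ :=
  ∑' x, (D.band m).indicator (fun x => D.hsum (oct m) c x * D.fB W m x) x

theorem measurable_chain {W : Y → ℝ≥0∞} (hW : Measurable W) (m : ℕ) :
    Measurable (D.chain W m) := by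
  have h := ((D.meas_hsum (oct m)).right ((D.measurable_fB hW m).indicator (D.measurableSet_band m))
    (φ := fun f v => v * f) (measurable_snd.mul measurable_fst) (fun _ => zero_mul _)).measurable_tsum
  have e : D.chain W m = fun c => ∑' x, D.hsum (oct m) c x * (D.band m).indicator (D.fB W m) x :=
    funext fun c => tsum_congr fun x => by
      by_cases hx : x ∈ D.band m <;> simp [hx]
  rw [e]
  exact h

theorem chain_Φ {W : Y → ℝ≥0∞} (hW : ∀ x, W (D.Φ x) = W x) (m : ℕ) (c : Y) :
    D.chain W m (D.Φ c) = D.chain W (m + 1) c := by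
  rw [chain, chain, ← D.Φ.toEquiv.tsum_eq]
  refine tsum_congr fun x => ?_
  change (D.band m).indicator _ (D.Φ x) = _
  by_cases hx : x ∈ D.band (m + 1)
  · rw [Set.indicator_of_mem hx, Set.indicator_of_mem ((D.Φ_mem_band m x).2 hx), D.hsum_oct_Φ]
    exact congrArg _ (IsScale.fB_eq D D.isScale_Φ hW m x)
  · rw [Set.indicator_of_notMem hx, Set.indicator_of_notMem fun h => hx ((D.Φ_mem_band m x).1 h)]

theorem setLIntegral_chain {W : Y → ℝ≥0∞} (hW : ∀ x, W (D.Φ x) = W x) (m n : ℕ) :
    ∫⁻ c in D.above n, D.chain W m c ∂μ = 2 ^ m * ∫⁻ c in D.above (n + m), D.chain W 0 c ∂μ := by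
  induction m generalizing n with
  | zero => simp
  | succ m ih =>
    have e : ∫⁻ c in D.above n, D.chain W (m + 1) c ∂μ =
        2 * ∫⁻ c in D.above (n + 1), D.chain W m c ∂μ := by
      rw [← lintegral_indicator (D.measurableSet_above _),
        ← lintegral_indicator (D.measurableSet_above _), ← D.lintegral_comp_Φ]
      refine lintegral_congr fun c => ?_
      have e : D.Φ c ∈ D.above (n + 1) ↔ c ∈ D.above n := by
        simp only [above, Set.mem_ofPred_eq, D.t_Φ, pow_succ]
        constructor <;> rintro ⟨h1, h2⟩ <;> constructor <;> linarith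
      by_cases hc : c ∈ D.above n
      · rw [Set.indicator_of_mem hc, Set.indicator_of_mem (e.2 hc), D.chain_Φ hW]
      · rw [Set.indicator_of_notMem hc, Set.indicator_of_notMem fun h => hc (e.1 h)]
    rw [e, ih, show n + 1 + m = n + (m + 1) by omega, pow_succ]
    ring

theorem tsum_above_le (c : Y) (G : ℝ≥0∞) :
    ∑' m, (D.above m).indicator (fun _ => 2 ^ m * G) c ≤
      {c | 1 < D.t c}.indicator (fun c => ENNReal.ofReal (D.t c) * G) c := by
  by_cases hex : ∃ m, c ∈ D.above m
  · obtain ⟨m, hm⟩ := hex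
    rw [tsum_eq_single m fun l hl => Set.indicator_of_notMem (fun hl' => hl ?_) _]
    · have h1 : (1 : ℝ) < D.t c := (one_le_pow₀ one_le_two).trans_lt hm.1
      rw [Set.indicator_of_mem hm, Set.indicator_of_mem (show c ∈ {c | 1 < D.t c} from h1)]
      refine mul_le_mul ?_ le_rfl zero_le zero_le
      rw [show (2 : ℝ≥0∞) ^ m = ENNReal.ofReal (2 ^ m) by
        rw [ENNReal.ofReal_pow zero_le_two, ENNReal.ofReal_ofNat]]
      exact ENNReal.ofReal_le_ofReal hm.1.le
    · rcases lt_trichotomy l m with h | h | h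
      · have : (2 : ℝ) ^ (l + 1) ≤ 2 ^ m := pow_le_pow_right₀ one_le_two h
        linarith [hl'.2, hm.1]
      · exact h
      · have : (2 : ℝ) ^ (m + 1) ≤ 2 ^ l := pow_le_pow_right₀ one_le_two h
        linarith [hl'.1, hm.2]
  · push Not at hex
    simp [Set.indicator_of_notMem (hex _)]

/-- The chaining, integrated over the window, is an integral over the top octave. -/
theorem setLIntegral_sum_sqrt_Sp_le_fB [NeZero r] {W : Y → ℝ≥0∞} (hWm : Measurable W)
    (hW : ∀ x, W (D.Φ x) = W x) :
    ∫⁻ c in D.window, ∑ j, D.Sp W j c ^ (1 / 2 : ℝ) ∂μ ≤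
      ∫⁻ x in D.band 0, ENNReal.ofReal (D.t x) * D.fB W 0 x ∂μ := by
  have h1 : ∫⁻ c in D.window, ∑ j, D.Sp W j c ^ (1 / 2 : ℝ) ∂μ ≤
      ∑' m, ∫⁻ c in D.window, D.chain W m c ∂μ := by
    rw [← lintegral_tsum fun m => (D.measurable_chain hWm m).aemeasurable]
    exact setLIntegral_mono (Measurable.tsum fun m => D.measurable_chain hWm m)
      fun c hc => D.sum_sqrt_Sp_le W hc
  refine h1.trans ?_
  have h2 : ∑' m, ∫⁻ c in D.window, D.chain W m c ∂μ =
      ∫⁻ c, ∑' m, (D.above m).indicator (fun _ => 2 ^ m * D.chain W 0 c) c ∂μ := by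
    have e : ∀ m, (fun c => (D.above m).indicator (fun _ => 2 ^ m * D.chain W 0 c) c) =
        (D.above m).indicator fun c => 2 ^ m * D.chain W 0 c := fun m => funext fun c => by
      by_cases hc : c ∈ D.above m <;> simp [hc]
    rw [lintegral_tsum fun m => by
      rw [e]
      exact ((measurable_const.mul (D.measurable_chain hWm 0)).indicator
        (D.measurableSet_above m)).aemeasurable]
    refine tsum_congr fun m => ?_
    rw [e, lintegral_indicator (D.measurableSet_above m),
      lintegral_const_mul _ (D.measurable_chain hWm 0), ← D.above_zero,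
      D.setLIntegral_chain hW m 0, zero_add]
  rw [h2]
  refine (lintegral_mono fun c => D.tsum_above_le c (D.chain W 0 c)).trans ?_
  have hF : Rl.Meas fun c x => {c | 1 < D.t c}.indicator (fun c => ENNReal.ofReal (D.t c)) c *
      (D.hsum 1 c x * (D.band 0).indicator (D.fB W 0) x) :=
    ((D.meas_hsum 1).right ((D.measurable_fB hWm 0).indicator (D.measurableSet_band 0))
      (φ := fun f v => v * f) (measurable_snd.mul measurable_fst) (fun _ => zero_mul _)).left
      ((ENNReal.measurable_ofReal.comp D.t_meas).indicator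
        (measurableSet_lt measurable_const D.t_meas))
      (φ := fun f v => f * v) (measurable_fst.mul measurable_snd) mul_zero
  have e : ∀ c, {c | 1 < D.t c}.indicator
      (fun c' => ENNReal.ofReal (D.t c') * D.chain W 0 c) c =
      ∑' x, {c | 1 < D.t c}.indicator (fun c => ENNReal.ofReal (D.t c)) c *
        (D.hsum 1 c x * (D.band 0).indicator (D.fB W 0) x) := fun c => by
    rw [ENNReal.tsum_mul_left, Set.indicator_mul_left, chain]
    congr 1
    refine tsum_congr fun x => ?_
    by_cases hx : x ∈ D.band 0 <;> simp [hx, oct]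
  simp only [e]
  rw [hF.lintegral_tsum_comm, ← lintegral_indicator (D.measurableSet_band 0)]
  refine lintegral_mono fun x => ?_
  by_cases hx : x ∈ D.band 0
  swap
  · simp [Set.indicator_of_notMem hx]
  rw [Set.indicator_of_mem hx]
  simp only [Set.indicator_of_mem hx, ← mul_assoc]
  rw [ENNReal.tsum_mul_right]
  refine mul_le_mul ?_ le_rfl zero_le zero_le
  refine le_trans (le_of_eq (tsum_congr fun c => ?_)) ((D.tsum_t_mul_hsum_le 1 x).trans
    (Set.indicator_le_self' (fun _ _ => zero_le) x))
  rw [Set.indicator_mul_left]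

/-- The second part of the chaining weight. -/
theorem setLIntegral_band_t_mul_V_le {W : Y → ℝ≥0∞} (hWm : Measurable W)
    (hW : ∀ x, W (D.Φ x) = W x) :
    ∫⁻ x in D.band 0, ENNReal.ofReal (D.t x) * D.V W (oct 1) x ∂μ ≤
      8 * ∫⁻ x in D.window, W x ∂μ := by
  set I := ∫⁻ x in D.window, W x ∂μ with hI
  have hF : Rl.Meas fun x b => (D.band 0).indicator (fun _ => (1 : ℝ≥0∞)) x *
      (W b * D.hsum (oct 1) x b ^ 2) :=
    (((D.meas_hsum (oct 1)).comp (φ := fun x : ℝ≥0∞ => x ^ 2)
      (measurable_id.pow_const 2) (zero_pow two_ne_zero)).right hWm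
      (φ := fun w v => w * v) (measurable_fst.mul measurable_snd) mul_zero).left
      (measurable_const.indicator (D.measurableSet_band 0))
      (φ := fun f v => f * v) (measurable_fst.mul measurable_snd) mul_zero
  have h1 : ∫⁻ x in D.band 0, ENNReal.ofReal (D.t x) * D.V W (oct 1) x ∂μ ≤
      ∫⁻ x, ∑' b, (D.band 0).indicator (fun _ => (1 : ℝ≥0∞)) x *
        (W b * D.hsum (oct 1) x b ^ 2) ∂μ := by
    rw [← lintegral_indicator (D.measurableSet_band 0)]
    refine lintegral_mono fun x => Set.indicator_apply_le' (fun hx => ?_) fun _ => zero_le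
    simp only [Set.indicator_of_mem hx, one_mul]
    refine (mul_le_of_le_one_left zero_le (ENNReal.ofReal_le_one.2 ?_)).trans_eq rfl
    simpa [oct] using hx.2
  refine h1.trans ?_
  rw [hF.lintegral_tsum_comm]
  have h2 : ∀ b, ∑' x, (D.band 0).indicator (fun _ => (1 : ℝ≥0∞)) x *
      (W b * D.hsum (oct 1) x b ^ 2) ≤
      ∑' m, (D.band (m + 1)).indicator (fun b => 4 * ENNReal.ofReal (oct (m + 1)) ^ 2 * W b) b := by
    intro b
    by_cases hb : D.t b ≤ oct 1
    swap
    · refine le_of_eq_of_le (ENNReal.tsum_eq_zero.2 fun x => ?_) zero_le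
      rw [D.hsum_of_lt (not_le.1 hb)]
      simp
    have hb1 : D.t b ≤ 1 := hb.trans (by norm_num [oct])
    obtain ⟨M, hM1, hM2⟩ := exists_nat_pow_near_of_lt_one (D.t_pos b) hb1
      (by norm_num : (0 : ℝ) < 1 / 2) (by norm_num)
    obtain ⟨m, rfl⟩ : ∃ m, M = m + 1 := by
      refine ⟨M - 1, (Nat.sub_add_cancel ?_).symm⟩
      by_contra hM
      have : M = 0 := by omega
      subst this
      simp only [oct, zero_add] at hb hM1
      linarith
    refine le_trans ?_ (ENNReal.le_tsum m)
    rw [Set.indicator_of_mem (show b ∈ D.band (m + 1) from ⟨hM1, hM2⟩)]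
    calc ∑' x, (D.band 0).indicator (fun _ => (1 : ℝ≥0∞)) x * (W b * D.hsum (oct 1) x b ^ 2)
        = W b * ∑' x, (D.band 0).indicator (fun x => D.hsum (oct 1) x b ^ 2) x := by
          rw [← ENNReal.tsum_mul_left]
          refine tsum_congr fun x => ?_
          by_cases hx : x ∈ D.band 0 <;> simp [hx]
      _ ≤ W b * (4 * ENNReal.ofReal (D.t b) ^ 2) :=
          mul_le_mul le_rfl (D.tsum_band_hsum_sq_le b) zero_le zero_le
      _ ≤ _ := by
          rw [mul_comm (W b)]
          gcongr
          exact hM2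
  refine (lintegral_mono h2).trans ?_
  rw [lintegral_tsum fun m =>
    ((hWm.const_mul (4 * ENNReal.ofReal (oct (m + 1)) ^ 2)).indicator
      (D.measurableSet_band _)).aemeasurable]
  have e : ∀ m, ∫⁻ b, (D.band (m + 1)).indicator
      (fun b => 4 * ENNReal.ofReal (oct (m + 1)) ^ 2 * W b) b ∂μ =
      ENNReal.ofReal (4 * (1 / 2) ^ m) * I := fun m => by
    rw [lintegral_indicator (D.measurableSet_band _), lintegral_const_mul _ hWm,
      D.setLIntegral_band hW, ← mul_assoc, ← hI]
    congr 1
    rw [show (4 : ℝ≥0∞) = ENNReal.ofReal 4 by simp, show (2 : ℝ≥0∞) = ENNReal.ofReal 2 by simp,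
      ← ENNReal.ofReal_pow (by rw [oct]; positivity), ← ENNReal.ofReal_pow zero_le_two,
      ← ENNReal.ofReal_mul (by norm_num), ← ENNReal.ofReal_mul (by positivity)]
    congr 1
    rw [oct, show m + 1 + 1 = (m + 1) + 1 from rfl]
    simp only [pow_succ, pow_zero, one_mul, div_pow, one_pow]
    field_simp
  rw [tsum_congr e, ENNReal.tsum_mul_right]
  refine le_of_eq ?_
  congr 1
  rw [← ENNReal.ofReal_tsum_of_nonneg (fun m => by positivity)
    (summable_geometric_two.mul_left 4), tsum_mul_left, tsum_geometric_two]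
  norm_num

/-- The lengths of the colours, integrated over the window. -/
theorem setLIntegral_sum_sqrt_Sp_le [NeZero r] :
    ∫⁻ c in D.window, ∑ j, D.Sp D.omW j c ^ (1 / 2 : ℝ) ∂μ ≤
      ENNReal.ofReal (6 / √(r * D.ζ)) * ∫⁻ x in D.window, D.omW x ∂μ := by
  set S := (r : ℝ) * D.ζ with hS
  have hS0 : 0 < S := mul_pos (Nat.cast_pos.2 (NeZero.pos r)) D.hζ
  have hsq : 0 < √S := Real.sqrt_pos.2 hS0
  have hW : ∀ x, D.omW (D.Φ x) = D.omW x := D.omW_scale two_pos D.isScale_Φ
  have hWm := D.measurable_omW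
  set a := (ENNReal.ofReal √S)⁻¹ with ha
  refine (D.setLIntegral_sum_sqrt_Sp_le_fB hWm hW).trans ?_
  have hp : ∀ x ∈ D.band 0, ENNReal.ofReal (D.t x) * D.fB D.omW 0 x ≤
      a * D.omW x + (ENNReal.ofReal (2 * √S))⁻¹ *
        (ENNReal.ofReal (D.t x) * D.V D.omW (oct 1) x) := by
    intro x hx
    have h1 : D.fB D.omW 0 x ≤ D.omW x ^ (1 / 2 : ℝ) +
        D.V D.omW (oct 1) x / ENNReal.ofReal (2 * √S) :=
      sqrt_add_le hS0 (D.le_omW x) (D.omW_ne_top x)
    have h2 : D.omW x ^ (1 / 2 : ℝ) ≤ a * D.omW x := by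
      rw [ha, mul_comm, ← div_eq_mul_inv,
        ENNReal.le_div_iff_mul_le (Or.inl (by simp [hsq])) (Or.inl ENNReal.ofReal_ne_top)]
      conv_rhs => rw [← sq_rpow_half (D.omW x), sq]
      refine mul_le_mul le_rfl ?_ zero_le zero_le
      rw [Real.sqrt_eq_rpow, ← ENNReal.ofReal_rpow_of_nonneg hS0.le (by norm_num)]
      exact ENNReal.rpow_le_rpow (D.le_omW x) (by norm_num)
    refine (mul_le_mul le_rfl h1 zero_le zero_le).trans ?_
    rw [mul_add]
    refine add_le_add ((mul_le_of_le_one_left zero_le ?_).trans h2) (le_of_eq ?_)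
    · exact ENNReal.ofReal_le_one.2 (by simpa [oct] using hx.2)
    · rw [div_eq_mul_inv]; ring
  refine (setLIntegral_mono ((hWm.const_mul a).fun_add
    (((ENNReal.measurable_ofReal.comp D.t_meas).fun_mul (D.measurable_V hWm _)).const_mul _))
    hp).trans ?_
  simp only [Function.comp_apply]
  rw [lintegral_add_left (hWm.const_mul a), lintegral_const_mul _ hWm,
    lintegral_const_mul (f := fun x => ENNReal.ofReal (D.t x) * D.V D.omW (oct 1) x) _
      ((ENNReal.measurable_ofReal.comp D.t_meas).fun_mul (D.measurable_V hWm _)),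
    D.setLIntegral_band hW]
  refine (add_le_add le_rfl (mul_le_mul le_rfl
    (D.setLIntegral_band_t_mul_V_le hWm hW) zero_le zero_le)).trans ?_
  rw [← mul_assoc, ← mul_assoc, ← add_mul]
  refine mul_le_mul ?_ le_rfl zero_le zero_le
  rw [ha, ← ENNReal.ofReal_inv_of_pos hsq, ← ENNReal.ofReal_inv_of_pos (mul_pos two_pos hsq),
    show (2 : ℝ≥0∞) ^ (0 + 1) = ENNReal.ofReal 2 by simp, show (8 : ℝ≥0∞) = ENNReal.ofReal 8 by simp,
    ← ENNReal.ofReal_mul (inv_nonneg.2 hsq.le), ← ENNReal.ofReal_mul (by positivity),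
    ← ENNReal.ofReal_add (by positivity) (by positivity)]
  refine ENNReal.ofReal_le_ofReal (le_of_eq ?_)
  field_simp
  ring

/-- The capped lengths and the excess of the fixed weight, integrated over the window. -/
theorem setLIntegral_psi_excess_le [NeZero r] (hrζ : 64 ≤ r * D.ζ)
    (hfin : μ {x | 1 < D.t x} ≠ ⊤) :
    ∫⁻ x in D.window, ∑ j, (ENNReal.ofReal (D.R j x / D.om j x) *
        min 1 (2 * D.Sp D.omW j x / ENNReal.ofReal (D.om j x)) +
      ENNReal.ofReal (D.om j x - D.R j x - D.ζ)) ∂μ ≤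
      ENNReal.ofReal (72 / √(r * D.ζ)) *
        ∫⁻ x in D.window, ENNReal.ofReal (∑ j, (D.R j x + D.ζ)) ∂μ := by
  set S := (r : ℝ) * D.ζ with hS
  have hsq : 8 ≤ √S := by
    rw [show (8 : ℝ) = √64 by rw [show (64 : ℝ) = 8 ^ 2 by norm_num, Real.sqrt_sq (by norm_num)]]
    exact Real.sqrt_le_sqrt hrζ
  set I := ∫⁻ x in D.window, D.omW x ∂μ with hI
  set B := ∫⁻ x in D.window, ENNReal.ofReal (∑ j, (D.R j x + D.ζ)) ∂μ with hB
  set P := ∫⁻ x in D.window, ∑ j, D.Sp D.omW j x ^ (1 / 2 : ℝ) ∂μ with hP
  have hP' : P ≤ ENNReal.ofReal (6 / √S) * I := D.setLIntegral_sum_sqrt_Sp_le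
  have hm : Measurable fun x => ∑ j, D.Sp D.omW j x ^ (1 / 2 : ℝ) :=
    Finset.measurable_sum _ fun j _ => (D.measurable_Sp D.measurable_omW j).pow_const _
  have hIB : I ≤ B + P := by
    rw [hI, hB, hP, ← lintegral_add_right _ hm]
    refine lintegral_mono fun x => ?_
    rw [ENNReal.ofReal_sum_of_nonneg fun j _ => by linarith [D.R_nonneg j x, D.hζ],
      ← Finset.sum_add_distrib]
    exact Finset.sum_le_sum fun j _ =>
      (D.om_le_max j x).trans (max_le le_self_add le_add_self)
  have hItop : I ≠ ⊤ := by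
    refine ne_top_of_le_ne_top (ENNReal.mul_ne_top (ENNReal.natCast_ne_top r) hfin)
      ((setLIntegral_mono measurable_const fun x _ => ?_).trans
        ((setLIntegral_const D.window (r : ℝ≥0∞)).le.trans
          (mul_le_mul le_rfl (measure_mono fun x hx => hx.1) zero_le zero_le)))
    refine (Finset.sum_le_sum fun i _ => ENNReal.ofReal_le_one.2 (D.om_le_one i x)).trans_eq ?_
    simp
  have hI4 : I ≤ 4 * B := by
    rcases eq_or_ne B ⊤ with hb | hb
    · rw [hb]; simp
    have h6 : 6 / √S ≤ 3 / 4 := by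
      rw [div_le_div_iff₀ (by linarith) (by norm_num)]
      linarith
    have h := hIB.trans (add_le_add le_rfl (hP'.trans
      (mul_le_mul (ENNReal.ofReal_le_ofReal h6) le_rfl zero_le zero_le)))
    have h' := ENNReal.toReal_mono
      (ENNReal.add_ne_top.2 ⟨hb, ENNReal.mul_ne_top ENNReal.ofReal_ne_top hItop⟩) h
    rw [ENNReal.toReal_add hb (ENNReal.mul_ne_top ENNReal.ofReal_ne_top hItop),
      ENNReal.toReal_mul, ENNReal.toReal_ofReal (by norm_num)] at h'
    rw [← ENNReal.ofReal_toReal hItop, ← ENNReal.ofReal_toReal hb,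
      show (4 : ℝ≥0∞) = ENNReal.ofReal 4 by simp, ← ENNReal.ofReal_mul (by norm_num)]
    exact ENNReal.ofReal_le_ofReal (by linarith)
  refine (setLIntegral_mono (measurable_const.mul hm) fun x _ => ?_).trans
    ((lintegral_const_mul (3 : ℝ≥0∞) hm).le.trans ?_)
  · simp only [Pi.mul_apply]
    rw [Finset.mul_sum]
    exact Finset.sum_le_sum fun j _ => D.psi_excess_le j x
  refine (mul_le_mul le_rfl (hP'.trans (mul_le_mul le_rfl hI4 zero_le zero_le)) zero_le
    zero_le).trans (le_of_eq ?_)
  rw [show (3 : ℝ≥0∞) = ENNReal.ofReal 3 by simp, show (4 : ℝ≥0∞) = ENNReal.ofReal 4 by simp,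
    ← mul_assoc, ← mul_assoc, ← ENNReal.ofReal_mul (by norm_num),
    ← ENNReal.ofReal_mul (by positivity)]
  congr 2
  ring

end Data

end Vale.Agent.P078.Expected.Leverage
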