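import Vale.Agent.P078.Expected.Leverage.Split
import Vale.Agent.P078.Expected.Leverage.Octave

/-!
The leverage of the colours is small against the total weight on one octave, for a suitable weight
which does not change under scalings.
-/

noncomputable section

open MeasureTheory Filter Topology
open scoped ENNReal lp RealInnerProductSpace

namespace Vale.Agent.P078.Expected.Leverage

universe u

variable {Y : Type u} [MeasurableSpace Y] {μ : Measure Y} {Rl : Rel μ} {r : ℕ}

/-- Being in the same class. -/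
theorem Rel.meas_same [DecidableRel Rl.Same] :
    Rl.Meas fun x y => if Rl.Same x y then (1 : ℝ≥0∞) else 0 := by
  refine ⟨fun x y h => if_neg h, fun k => ?_⟩
  have e : ((Rl.map k).source.indicator fun x =>
      if Rl.Same x (Rl.app k x) then (1 : ℝ≥0∞) else 0) =
      (Rl.map k).source.indicator fun _ => 1 := by
    refine Set.indicator_congr fun x hx => ?_
    rw [if_pos (Rl.same_app hx)]
  rw [e]
  exact measurable_const.indicator (Rl.meas_source k)

omit [MeasurableSpace Y] in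
/-- The truncated inverse keeps the leverage below one. -/
theorem leverage_le_one {T : Fin r → Endo Y} {G : Endo Y} (hG : G = ∑ j, T j * star (T j))
    {c : ℝ} (hc : 0 < c) (hhi : ∀ v, ⟪v, G v⟫ ≤ c * ‖v‖ ^ 2) (n : ℕ) (j : Fin r) (x : Y) :
    ⟪T j (dirac x), neum G c n (T j (dirac x))⟫ ≤ 1 := by
  have hGs : IsSelfAdjoint G := by
    rw [hG, IsSelfAdjoint, star_sum]
    exact Finset.sum_congr rfl fun j _ => by rw [star_mul, star_star]
  set w := T j (dirac x) with hw
  set z := neum G c n w with hz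
  have h1 := neum_form_le hGs hc hhi n w
  rw [← hz] at h1
  have h2 : ‖star (T j) z‖ ^ 2 ≤ ⟪z, G z⟫ := by
    rw [hG, inner_sum_mul_star]
    exact Finset.single_le_sum (f := fun i => ‖star (T i) z‖ ^ 2) (fun i _ => sq_nonneg _)
      (Finset.mem_univ j)
  have h3 : ⟪w, z⟫ ≤ ‖star (T j) z‖ := by
    rw [hw, ← inner_star_right]
    refine (real_inner_le_norm _ _).trans ?_
    rw [norm_dirac, one_mul]
  nlinarith [norm_nonneg (star (T j) z), sq_nonneg (‖star (T j) z‖ - 1)]

namespace Data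

variable (D : Data Rl r)

theorem measurableSet_low (s : ℝ) : MeasurableSet (D.low s) :=
  measurableSet_le D.t_meas measurable_const

theorem isWeight_om : D.IsWeight D.om :=
  ⟨D.measurable_om, fun j x => ⟨D.le_om j x, D.om_le_one j x⟩⟩

theorem mu_half : μ {x | 1 / 2 < D.t x} = 2 * μ {x | 1 < D.t x} := by
  rw [← lintegral_indicator_one (measurableSet_lt measurable_const D.t_meas),
    ← lintegral_indicator_one (measurableSet_lt measurable_const D.t_meas), ← D.lintegral_comp_Φ]
  refine lintegral_congr fun x => ?_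
  have h : (1 / 2 : ℝ) < D.t x ↔ 1 < D.t (D.Φ x) := by
    rw [D.t_Φ]
    constructor <;> intro h <;> linarith
  by_cases hx : (1 / 2 : ℝ) < D.t x
  · rw [Set.indicator_of_mem (show x ∈ {x | 1 / 2 < D.t x} from hx),
      Set.indicator_of_mem (show D.Φ x ∈ {x | 1 < D.t x} from h.1 hx)]
    rfl
  · rw [Set.indicator_of_notMem (show x ∉ {x | 1 / 2 < D.t x} from hx),
      Set.indicator_of_notMem (show D.Φ x ∉ {x | 1 < D.t x} from fun h' => hx (h.2 h'))]

variable {D} {ω : Fin r → Y → ℝ} {L M : Fin r → Endo Y}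

theorem exists_weightRoot (hω : D.IsWeight ω) (i : Fin r) : ∃ T : Endo Y,
    ∀ (v : H2 Y) x, (T v : ∀ _, ℝ) x = √(ω i x) * (v : ∀ _, ℝ) x :=
  (exists_mult_op (fun x => √(ω i x)) zero_le_one fun x => by
    rw [abs_of_nonneg (Real.sqrt_nonneg _), Real.sqrt_le_one]
    exact (hω.2 i x).2).imp fun _ h => h.2

variable (hω : D.IsWeight ω) (hL : ∀ j, D.IsL j (L j)) (hM : ∀ j, D.IsM ω j (M j))
include hω hL hM

theorem star_T (j : Fin r) : star (L j * M j) = M j * L j := by
  rw [star_mul, (hL j).sa.star_eq, ((hM j).sa hω).star_eq]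

theorem form_bounds (hr : 1 ≤ r) (v : H2 Y) :
    D.τ ^ 2 * ‖v‖ ^ 2 ≤ ⟪v, (∑ j, L j * M j * star (L j * M j)) v⟫ ∧
      ⟪v, (∑ j, L j * M j * star (L j * M j)) v⟫ ≤ 16 * r / D.ζ * ‖v‖ ^ 2 := by
  rw [inner_sum_mul_star]
  have h1 : ∀ j, D.τ ^ 2 * ‖v‖ ^ 2 ≤ ‖star (L j * M j) v‖ ^ 2 ∧
      ‖star (L j * M j) v‖ ^ 2 ≤ 16 / D.ζ * ‖v‖ ^ 2 := fun j => by
    rw [star_T hω hL hM, mul_apply_eq_comp]
    obtain ⟨hlo, hhi⟩ := (hM j).norm_bounds hω (L j v)
    constructor
    · refine le_trans ?_ hlo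
      rw [← mul_pow]
      refine pow_le_pow_left₀ (mul_nonneg D.hτ.le (norm_nonneg v)) ?_ 2
      rcases (norm_nonneg v).eq_or_lt with h0 | h0
      · rw [← h0, mul_zero]; exact norm_nonneg _
      · refine le_of_mul_le_mul_left ?_ h0
        calc ‖v‖ * (D.τ * ‖v‖) = D.τ * ‖v‖ ^ 2 := by ring
          _ ≤ ⟪v, L j v⟫ := (hL j).le_inner v
          _ ≤ ‖v‖ * ‖L j v‖ := real_inner_le_norm _ _
    · refine hhi.trans ?_
      have h := pow_le_pow_left₀ (norm_nonneg _) ((L j).le_of_opNorm_le (hL j).norm_le v) 2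
      refine (mul_le_mul_of_nonneg_left h (one_div_nonneg.2 D.hζ.le)).trans_eq ?_
      ring
  constructor
  · exact (h1 ⟨0, hr⟩).1.trans (Finset.single_le_sum (f := fun j => ‖star (L j * M j) v‖ ^ 2)
      (fun j _ => sq_nonneg _) (Finset.mem_univ _))
  · refine (Finset.sum_le_sum fun j _ => (h1 j).2).trans_eq ?_
    rw [Finset.sum_const, Finset.card_univ, Fintype.card_fin, nsmul_eq_mul]
    ring

theorem green_part [NeZero r] {G S : Endo Y} (hG : G = ∑ j, L j * M j * star (L j * M j))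
    (hES : proj (D.low (1 / 2)) * S = S)
    (hinv : proj (D.low (1 / 2)) * G * S = proj (D.low (1 / 2))) (j : Fin r) {x : Y}
    (hx : 1 < D.t x) (hgood : ∀ y, Rl.Same x y → ∀ i, ω i y = D.om i y) :
    ENNReal.ofReal ⟪S ((L j * M j) (dirac x)), G (S ((L j * M j) (dirac x)))⟫ ≤
      D.Sp D.omW j x / ENNReal.ofReal (D.om j x) := by
  classical
  have hxω : ω j x = D.om j x := hgood x (Rl.same_refl x) j
  rcases eq_or_ne (D.Sp D.omW j x) ⊤ with htop | hfin
  · rw [htop, ENNReal.top_div_of_ne_top ENNReal.ofReal_ne_top]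
    exact le_top
  set E := proj (D.low (1 / 2)) with hE
  set s : ℝ := D.t x / 2 with hs
  have hsx : s < D.t x := by rw [hs]; linarith [D.t_pos x]
  have hs2 : (1 : ℝ) / 2 ≤ s := by rw [hs]; linarith
  set h : Y → ℝ := fun b => (D.hj j s x b).toReal with hh
  have hh0 : ∀ b, 0 ≤ h b := fun b => ENNReal.toReal_nonneg
  have hhe : ∀ b, ENNReal.ofReal (h b) = D.hj j s x b := fun b =>
    ENNReal.ofReal_toReal (D.hj_ne_top j hsx b)
  have hS0 : (0 : ℝ) < r * D.ζ :=
    mul_pos (by exact_mod_cast Nat.pos_of_ne_zero (NeZero.ne r)) D.hζ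
  have hmem : Memℓp h 2 := memℓp_gen (by
    have hfin' : ∑' b, ENNReal.ofReal (h b ^ 2) ≠ ⊤ := by
      intro htop
      refine hfin (top_le_iff.1 ?_)
      rw [← ENNReal.mul_top (ENNReal.ofReal_pos.2 hS0).ne', ← htop, Sp, ← ENNReal.tsum_mul_left]
      refine ENNReal.tsum_le_tsum fun b => ?_
      rw [← hs, ← hhe, ENNReal.ofReal_pow (hh0 b)]
      exact mul_le_mul_left (D.le_omW b) _
    refine (ENNReal.summable_toReal hfin').congr fun b => ?_
    rw [ENNReal.toReal_ofReal (sq_nonneg _), show ((2 : ℝ≥0∞).toReal) = ((2 : ℕ) : ℝ) by norm_num,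
      Real.rpow_natCast, Real.norm_eq_abs, sq_abs])
  let v : H2 Y := ⟨h, hmem⟩
  have hv : ∀ b, (v : ∀ _, ℝ) b = h b := fun b => rfl
  choose Mi hMi using fun i => exists_weightRoot hω i
  have hMx : M j (dirac x) = (√(ω j x))⁻¹ • dirac x := lp.ext (funext fun y => by
    rw [(hM j).eq_apply hω, lp.coeFn_smul, Pi.smul_apply, smul_eq_mul]
    rcases eq_or_ne y x with rfl | hyx <;> simp [dirac_ne, *])
  have hMM : ∀ i, M i * Mi i = 1 := fun i => ContinuousLinearMap.ext fun u => lp.ext (funext fun y => by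
    rw [mul_apply_eq_comp, (hM i).eq_apply hω, hMi, ← mul_assoc,
      inv_mul_cancel₀ (Real.sqrt_pos.2 (hω.pos i y)).ne', one_mul]
    rfl)
  have heq : ∀ b ∈ D.low (1 / 2),
      (∑ i, D.a i b) * h b - ∑ i, (D.nop i v : ∀ _, ℝ) b = D.N j b x := by
    intro b hb
    have hb' : D.t b ≤ s := le_trans hb hs2
    have he := D.hj_eq j x hb'
    have hsum : HasSum (fun y => (∑ i, D.N i b y) * h y) (∑ i, (D.nop i v : ∀ _, ℝ) b) := by
      simp only [Finset.sum_mul]
      exact hasSum_sum (a := fun i => (D.nop i v : ∀ _, ℝ) b) fun i _ => D.hasSum_nop i v b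
    have hn0 : ∀ y, 0 ≤ (∑ i, D.N i b y) * h y := fun y =>
      mul_nonneg (Finset.sum_nonneg fun i _ => D.N_nonneg i b y) (hh0 y)
    have ha0 : ∀ i, 0 ≤ D.a i b := fun i => D.hτ.le.trans (D.a_lower i b)
    have e1 : ∑' y, D.kerSum b y * D.hj j s x y =
        ENNReal.ofReal (∑ i, (D.nop i v : ∀ _, ℝ) b) := by
      rw [← hsum.tsum_eq, ENNReal.ofReal_tsum_of_nonneg hn0 hsum.summable]
      refine tsum_congr fun y => ?_
      rw [ENNReal.ofReal_mul (Finset.sum_nonneg fun i _ => D.N_nonneg i b y), hhe,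
        ENNReal.ofReal_sum_of_nonneg fun i _ => D.N_nonneg i b y]
      rfl
    rw [e1, ← hhe, diag, ← ENNReal.ofReal_sum_of_nonneg fun i _ => ha0 i,
      ← ENNReal.ofReal_mul (hh0 b), Data.ker, ← ENNReal.ofReal_add (D.N_nonneg j b x)
        (hsum.nonneg hn0), ENNReal.ofReal_eq_ofReal_iff
        (mul_nonneg (hh0 b) (Finset.sum_nonneg fun i _ => ha0 i))
        (add_nonneg (D.N_nonneg j b x) (hsum.nonneg hn0))] at he
    linarith [mul_comm (h b) (∑ i, D.a i b)]
  let y : Fin r → H2 Y := fun i => (-(√(ω j x))⁻¹) • Mi i v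
  have hy : E (∑ i, (L i * M i) (y i)) = E ((L j * M j) (dirac x)) := by
    have e : ∀ i, (L i * M i) (y i) = (-(√(ω j x))⁻¹) • L i v := fun i => by
      simp only [y, map_smul, mul_apply_eq_comp]
      rw [← mul_apply_eq_comp (M i) (Mi i), hMM, one_apply_eq_self]
    rw [Finset.sum_congr rfl fun i _ => e i, ← Finset.smul_sum, map_smul, mul_apply_eq_comp, hMx,
      map_smul, map_smul]
    refine lp.ext (funext fun b => ?_)
    simp only [lp.coeFn_smul, Pi.smul_apply, smul_eq_mul]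
    by_cases hb : b ∈ D.low (1 / 2)
    · have hbx : b ≠ x := fun e => by
        have : D.t b ≤ 1 / 2 := hb
        rw [e] at this
        linarith
      rw [hE, proj_of_mem hb, proj_of_mem hb, lp.coeFn_sum, Finset.sum_apply,
        Finset.sum_congr rfl fun i _ => (hL i).eq_apply v b, Finset.sum_sub_distrib,
        ← Finset.sum_mul, hv, heq b hb, (hL j).eq_apply, dirac_ne hbx, ← D.ker_nop j b x]
      simp [Leverage.ker]
    · rw [hE, proj_of_notMem hb, proj_of_notMem hb]
      ring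
  have hA := inner_green_le (isSelfAdjoint_proj (D.low (1 / 2))) hG hES hinv hy
  refine (ENNReal.ofReal_le_ofReal hA).trans (le_of_eq ?_)
  rw [ENNReal.ofReal_sum_of_nonneg fun i _ => sq_nonneg _, Sp, ← hs, div_eq_mul_inv,
    ← ENNReal.tsum_mul_right]
  have e2 : ∀ i, ENNReal.ofReal (‖y i‖ ^ 2) =
      ∑' b, ENNReal.ofReal (ω i b * h b ^ 2) * (ENNReal.ofReal (D.om j x))⁻¹ := fun i => by
    rw [ofReal_norm_sq]
    refine tsum_congr fun b => ?_
    simp only [y, lp.coeFn_smul, Pi.smul_apply, smul_eq_mul, hMi, hv, mul_pow, neg_sq, inv_pow]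
    rw [Real.sq_sqrt (hω.pos j x).le, Real.sq_sqrt (hω.pos i b).le, ← hxω,
      ← ENNReal.ofReal_inv_of_pos (hω.pos j x),
      ← ENNReal.ofReal_mul (mul_nonneg (hω.pos i b).le (sq_nonneg _))]
    congr 1
    ring
  rw [Finset.sum_congr rfl fun i _ => e2 i, ← Summable.tsum_finsetSum fun _ _ => ENNReal.summable]
  refine tsum_congr fun b => ?_
  rw [← hhe, ← ENNReal.ofReal_pow (hh0 b), omW, Finset.sum_mul, Finset.sum_mul]
  refine Finset.sum_congr rfl fun i _ => ?_
  by_cases hxb : Rl.Same x b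
  · rw [hgood b hxb i, ENNReal.ofReal_mul (le_trans
      (add_nonneg (D.R_nonneg i b) D.hζ.le) (D.le_om i b))]
  · have : h b = 0 := by
      by_contra hne
      exact hxb (D.same_of_hj_ne_zero j (s := s) fun h0 => hne (by simp [hh, h0]))
    simp [this]

omit hL hM in
/-- Weights which agree almost everywhere agree almost everywhere along the classes. -/
theorem ae_good (he : ∀ i, ω i =ᵐ[μ] D.om i) :
    ∀ᵐ x ∂μ, ∀ y, Rl.Same x y → ∀ i, ω i y = D.om i y := by
  classical
  set B : Set Y := {y | ∃ i, ω i y ≠ D.om i y} with hB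
  have hBm : MeasurableSet B := by
    have : B = ⋃ i, {y | ω i y = D.om i y}ᶜ := by ext y; simp [hB]
    rw [this]
    exact MeasurableSet.iUnion fun i =>
      (measurableSet_eq_fun (hω.1 i) (D.measurable_om i)).compl
  have hB0 : ∀ᵐ y ∂μ, y ∉ B := by
    filter_upwards [ae_all_iff.2 he] with y hy
    rintro ⟨i, hi⟩
    exact hi (hy i)
  set F : Y → Y → ℝ≥0∞ := fun x y =>
    B.indicator (fun _ => (1 : ℝ≥0∞)) y * if Rl.Same x y then (1 : ℝ≥0∞) else 0 with hFdef
  have hF : Rl.Meas F := Rl.meas_same.right (measurable_const.indicator hBm)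
    (φ := fun b v : ℝ≥0∞ => b * v) (measurable_fst.mul measurable_snd) fun b => mul_zero b
  have h0 : ∫⁻ x, ∑' y, F x y ∂μ = 0 := by
    rw [hF.lintegral_tsum_comm]
    refine lintegral_eq_zero_of_ae_eq_zero ?_
    filter_upwards [hB0] with x hx
    simp [hFdef, hx]
  have h1 := (lintegral_eq_zero_iff hF.measurable_tsum).1 h0
  filter_upwards [h1] with x hx y hxy i
  by_contra hne
  have h2 := (ENNReal.tsum_eq_zero.1 hx) y
  simp [hFdef, hxy, show y ∈ B from ⟨i, hne⟩] at h2

end Data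

open Classical in
theorem leverage (D : Data Rl r) (hrζ : 64 ≤ r * D.ζ) (hfin : μ {x | 1 < D.t x} ≠ ⊤) :
    ∃ ω : Fin r → Y → ℝ, D.IsWeight ω ∧
      (∀ k : ℝ, 0 < k → ∀ Ψ : Y ≃ Y, D.IsScale k Ψ → ∀ j x, ω j (Ψ x) = ω j x) ∧
      ∀ ω' : Fin r → Y → ℝ, D.IsWeight ω' → (∀ j, ω' j =ᵐ[μ] ω j) →
        ∀ L M : Fin r → H2 Y →L[ℝ] H2 Y, (∀ j, D.IsL j (L j)) → (∀ j, D.IsM ω' j (M j)) →
          ∀ (c : ℝ), 16 * r / D.ζ ≤ c → ∀ n : ℕ,
            ∫⁻ x in D.window, ENNReal.ofReal (∑ j, D.psi ω' j x *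
                ⟪(L j * M j) (dirac x),
                  neum (∑ k, (L k * M k) * (M k * L k)) c n ((L j * M j) (dirac x))⟫) ∂μ +
              ∫⁻ x in D.window, ENNReal.ofReal (∑ j, (ω' j x - D.R j x - D.ζ)) ∂μ ≤
            8 * μ {x | 1 < D.t x} + ENNReal.ofReal (72 / √(r * D.ζ)) *
              ∫⁻ x in D.window, ENNReal.ofReal (∑ j, (D.R j x + D.ζ)) ∂μ := by
  refine ⟨D.om, D.isWeight_om, fun k hk Ψ hΨ j x => D.om_scale hk hΨ j x,
    fun ω hω hae L M hL hM c hc n => ?_⟩
  have hr : 1 ≤ r := by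
    rcases Nat.eq_zero_or_pos r with h | h
    · subst h; norm_num at hrζ
    · exact h
  have : NeZero r := ⟨by omega⟩
  set G : Endo Y := ∑ k, (L k * M k) * star (L k * M k) with hG
  have hGe : ∑ k, (L k * M k) * (M k * L k) = G :=
    Finset.sum_congr rfl fun k _ => by rw [Data.star_T hω hL hM]
  rw [hGe]
  have hG' : IsSelfAdjoint G := by
    rw [hG, IsSelfAdjoint, star_sum]
    exact Finset.sum_congr rfl fun j _ => by rw [star_mul, star_star]
  have hlo := fun v => (Data.form_bounds hω hL hM hr v).1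
  have hhi := fun v => (Data.form_bounds hω hL hM hr v).2
  have hζ := D.hζ
  have hr0 : (0 : ℝ) < r := by exact_mod_cast hr
  have hc0 : 0 < c := lt_of_lt_of_le (by positivity) hc
  have hhic : ∀ v, ⟪v, G v⟫ ≤ c * ‖v‖ ^ 2 := fun v =>
    (hhi v).trans (mul_le_mul_of_nonneg_right hc (sq_nonneg _))
  have hε : 0 < D.τ ^ 2 := pow_pos D.hτ 2
  have hTop : ∀ j, Rl.IsOp (L j * M j) := fun j => (hL j).isOp.mul ((hM j).isOp hω)
  have hGop : Rl.IsOp G := Rel.IsOp.sum Finset.univ fun j _ => (hTop j).mul (hTop j).star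
  obtain ⟨S, hS⟩ := exists_green (s := D.low (1 / 2)) hG' hε (κ := max 1 (16 * r / D.ζ))
    (le_max_left _ _) hlo
    fun v => (hhi v).trans (mul_le_mul_of_nonneg_right (le_max_right _ _) (sq_nonneg _))
  have hSop : Rl.IsOp S := hS.isOp (D.measurableSet_low _) hGop
  obtain ⟨a, s, hR, haop⟩ := exists_rest Rl (isSelfAdjoint_proj (D.low (1 / 2))) hG hε hlo hS.sa
    hS.left hS.inv hTop hSop
  set U : Fin r → Endo Y := fun j => L j * M j - G * S * (L j * M j) with hU
  let FV : Y → Y → ℝ≥0∞ := fun x b =>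
    ∑ l, ∑' m : ℕ, ENNReal.ofReal (2 * s * ker (a ^ m * U l) b x ^ 2)
  have hUop : ∀ l, Rl.IsOp (U l) := fun l => (hTop l).sub ((hGop.mul hSop).mul (hTop l))
  have hs0 : 0 ≤ 2 * s := by have := hR.s_pos; positivity
  have hFV : Rl.Meas FV := by
    refine ⟨fun x b h => ?_, fun k => ?_⟩
    · have h0 : ∀ l m, ker (a ^ m * U l) b x = 0 := fun l m =>
        ((haop.pow m).mul (hUop l)).supp b x fun hc => h (Rl.same_symm hc)
      simp [FV, h0]
    · have hm : ∀ l m, Measurable ((Rl.map k).source.indicator fun x => ENNReal.ofReal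
          (2 * s * ker (a ^ m * U l) (Rl.app k x) x ^ 2)) := fun l m =>
        ((Rel.Meas.transpose ((haop.pow m).mul (hUop l))).comp
          (φ := fun v : ℝ => ENNReal.ofReal (2 * s * v ^ 2))
          (ENNReal.measurable_ofReal.comp (measurable_const.mul (measurable_id.pow_const 2)))
          (by simp)).meas k
      have e : ((Rl.map k).source.indicator fun x => FV x (Rl.app k x)) = fun x =>
          ∑ l, ∑' m, (Rl.map k).source.indicator
            (fun x => ENNReal.ofReal (2 * s * ker (a ^ m * U l) (Rl.app k x) x ^ 2)) x := by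
        funext x
        by_cases hx : x ∈ (Rl.map k).source <;> simp [FV, hx]
      rw [e]
      exact Finset.measurable_sum _ fun l _ => Measurable.tsum fun m => hm l m
  have hpt : ∀ x ∈ D.window, (∀ y, Rl.Same x y → ∀ i, ω i y = D.om i y) →
      ENNReal.ofReal (∑ j, D.psi ω j x *
        ⟪(L j * M j) (dirac x), neum G c n ((L j * M j) (dirac x))⟫) +
        ENNReal.ofReal (∑ j, (ω j x - D.R j x - D.ζ)) ≤
      (∑ j, (ENNReal.ofReal (D.R j x / D.om j x) *
          min 1 (2 * D.Sp D.omW j x / ENNReal.ofReal (D.om j x)) +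
        ENNReal.ofReal (D.om j x - D.R j x - D.ζ))) + 2 * ∑' b, FV x b := by
    intro x hx hgood
    have hωx : ∀ j, ω j x = D.om j x := hgood x (Rl.same_refl x)
    have hP : ∀ j, ENNReal.ofReal ⟪(L j * M j) (dirac x), neum G c n ((L j * M j) (dirac x))⟫ ≤
        min 1 (2 * D.Sp D.omW j x / ENNReal.ofReal (D.om j x)) +
          2 * ∑' m : ℕ, ∑' b, ENNReal.ofReal (2 * s * ker (a ^ m * U j) b x ^ 2) := by
      intro j
      have h1 : ENNReal.ofReal ⟪(L j * M j) (dirac x), neum G c n ((L j * M j) (dirac x))⟫ ≤ 1 :=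
        ENNReal.ofReal_le_one.2 (leverage_le_one (T := fun j => L j * M j) hG hc0 hhic n j x)
      have e : (∑' m : ℕ, ENNReal.ofReal (2 * s *
          ‖(a ^ m) ((L j * M j) (dirac x) - G (S ((L j * M j) (dirac x))))‖ ^ 2)) =
          ∑' m : ℕ, ∑' b, ENNReal.ofReal (2 * s * ker (a ^ m * U j) b x ^ 2) := by
        refine tsum_congr fun m => ?_
        rw [show (a ^ m) ((L j * M j) (dirac x) - G (S ((L j * M j) (dirac x)))) =
          (a ^ m * U j) (dirac x) by simp [hU], ENNReal.ofReal_mul hs0, apply_dirac_sq,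
          ← ENNReal.tsum_mul_left]
        exact tsum_congr fun b => (ENNReal.ofReal_mul hs0).symm
      have h2 := hR.split hc0 hhic n ((L j * M j) (dirac x))
      rw [e] at h2
      rcases le_total (1 : ℝ≥0∞) (2 * D.Sp D.omW j x / ENNReal.ofReal (D.om j x)) with h | h
      · rw [min_eq_left h]
        exact h1.trans le_self_add
      rw [min_eq_right h]
      refine h2.trans (add_le_add ?_ le_rfl)
      rw [mul_div_assoc]
      exact mul_le_mul_right (Data.green_part hω hL hM hG hS.left hS.inv j hx.1 hgood) _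
    have hnn : ∀ j, 0 ≤ D.psi ω j x *
        ⟪(L j * M j) (dirac x), neum G c n ((L j * M j) (dirac x))⟫ := fun j =>
      mul_nonneg (Data.psi_le_one hω j x).1 (le_trans (le_trans
        (mul_nonneg hε.le (sq_nonneg _)) (hlo _)) (neum_form_le hG' hc0 hhic n _))
    rw [ENNReal.ofReal_sum_of_nonneg fun j _ => hnn j,
      ENNReal.ofReal_sum_of_nonneg fun j _ => by linarith [(hω.2 j x).1],
      ← Finset.sum_add_distrib]
    have hV : ∑' b, FV x b =
        ∑ j, ∑' m : ℕ, ∑' b, ENNReal.ofReal (2 * s * ker (a ^ m * U j) b x ^ 2) := by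
      simp only [FV]
      rw [Summable.tsum_finsetSum fun l _ => ENNReal.summable]
      exact Finset.sum_congr rfl fun l _ => ENNReal.tsum_comm
    rw [hV, Finset.mul_sum, ← Finset.sum_add_distrib]
    refine Finset.sum_le_sum fun j _ => ?_
    obtain ⟨hp0, hp1⟩ := Data.psi_le_one hω j x
    rw [ENNReal.ofReal_mul hp0]
    refine (add_le_add (mul_le_mul_right (hP j) _) le_rfl).trans ?_
    rw [mul_add, add_right_comm]
    refine add_le_add ?_ (mul_le_of_le_one_left zero_le (ENNReal.ofReal_le_one.2 hp1))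
    simp only [Data.psi, hωx j, le_refl]
  have hV : ∫⁻ x, ∑' b, FV x b ∂μ ≤ 4 * μ {x | 1 < D.t x} := by
    rw [hFV.lintegral_tsum_comm,
      show (4 : ℝ≥0∞) * μ {x | 1 < D.t x} = 2 * μ {x | 1 / 2 < D.t x} by
        rw [D.mu_half, ← mul_assoc]; norm_num,
      ← setLIntegral_const, ← lintegral_indicator (measurableSet_lt measurable_const D.t_meas)]
    refine lintegral_mono fun b => ?_
    have e : ∀ l m, ∑' x, ENNReal.ofReal (2 * s * ker (a ^ m * U l) b x ^ 2) =
        ENNReal.ofReal (2 * s * ‖star (U l) ((a ^ m) (dirac b))‖ ^ 2) := fun l m => by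
      rw [ENNReal.ofReal_mul hs0, ← mul_apply_eq_comp,
        show star (U l) * a ^ m = star (a ^ m * U l) by rw [star_mul, star_pow_of_sa hR.a_sa],
        apply_dirac_sq, ← ENNReal.tsum_mul_left]
      refine tsum_congr fun x => ?_
      rw [ker_star, ← ENNReal.ofReal_mul hs0]
    have hsum : ∑' x, FV x b = ∑' m : ℕ, ∑ l,
        ENNReal.ofReal (2 * s * ‖star (U l) ((a ^ m) (dirac b))‖ ^ 2) := by
      simp only [FV]
      rw [Summable.tsum_finsetSum fun l _ => ENNReal.summable,
        Summable.tsum_finsetSum fun l _ => ENNReal.summable]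
      refine Finset.sum_congr rfl fun l _ => ?_
      rw [ENNReal.tsum_comm]
      exact tsum_congr fun m => e l m
    rw [hsum]
    by_cases hb : 1 / 2 < D.t b
    · rw [Set.indicator_of_mem (show b ∈ {x | 1 / 2 < D.t x} from hb), ENNReal.tsum_eq_iSup_nat]
      refine iSup_le fun N => ?_
      rw [Finset.sum_congr rfl fun m _ => (ENNReal.ofReal_sum_of_nonneg fun l _ =>
          mul_nonneg hs0 (sq_nonneg _)).symm,
        ← ENNReal.ofReal_sum_of_nonneg fun m _ => Finset.sum_nonneg fun l _ =>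
          mul_nonneg hs0 (sq_nonneg _)]
      refine le_of_le_of_eq (ENNReal.ofReal_le_ofReal (q := 2) ?_) (ENNReal.ofReal_ofNat 2)
      have hstep : ∀ m, ∑ l, 2 * s * ‖star (U l) ((a ^ m) (dirac b))‖ ^ 2 ≤
          2 * ‖(a ^ m) (dirac b)‖ ^ 2 - 2 * ‖(a ^ (m + 1)) (dirac b)‖ ^ 2 := fun m => by
        have := hR.le m (dirac b)
        rw [← Finset.mul_sum]
        linarith
      refine (Finset.sum_le_sum fun m _ => hstep m).trans ?_
      rw [Finset.sum_range_sub']
      simp only [pow_zero, one_apply_eq_self, norm_dirac]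
      nlinarith [sq_nonneg ‖(a ^ N) (dirac b)‖]
    · rw [Set.indicator_of_notMem (show b ∉ {x | 1 / 2 < D.t x} from hb)]
      refine le_of_eq (ENNReal.tsum_eq_zero.2 fun m => Finset.sum_eq_zero fun l _ => ?_)
      rw [hR.zero m (dirac b) (proj_dirac (show b ∈ D.low (1 / 2) from not_lt.1 hb)) l]
      simp
  have hm2 : Measurable fun x => ENNReal.ofReal (∑ j, (ω j x - D.R j x - D.ζ)) :=
    ENNReal.measurable_ofReal.comp
      (Finset.measurable_sum _ fun j _ => ((hω.1 j).sub (D.R_meas j)).sub_const _)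
  have hmS : Measurable fun x => ∑ j, (ENNReal.ofReal (D.R j x / D.om j x) *
      min 1 (2 * D.Sp D.omW j x / ENNReal.ofReal (D.om j x)) +
      ENNReal.ofReal (D.om j x - D.R j x - D.ζ)) :=
    Finset.measurable_sum _ fun j _ =>
      ((ENNReal.measurable_ofReal.comp ((D.R_meas j).div (D.measurable_om j))).mul
        (measurable_const.min (((D.measurable_Sp D.measurable_omW j).const_mul 2).div
          (ENNReal.measurable_ofReal.comp (D.measurable_om j))))).add
      (ENNReal.measurable_ofReal.comp (((D.measurable_om j).sub (D.R_meas j)).sub_const _))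
  rw [← lintegral_add_right _ hm2]
  refine (lintegral_mono_ae ?_).trans
    (_root_.trans (le_of_eq (lintegral_add_left (μ := μ.restrict D.window)
      hmS fun x => 2 * ∑' b, FV x b)) ?_)
  · filter_upwards [ae_restrict_mem D.measurableSet_window,
      ae_restrict_of_ae (Data.ae_good hω hae)] with x hx hgood
    exact hpt x hx hgood
  rw [lintegral_const_mul 2 hFV.measurable_tsum, add_comm]
  refine add_le_add ?_ (D.setLIntegral_psi_excess_le hrζ hfin)
  refine (mul_le_mul_right ((setLIntegral_le_lintegral _ _).trans hV) _).trans_eq ?_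
  rw [← mul_assoc]
  norm_num

end Vale.Agent.P078.Expected.Leverage
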