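import Vale.Agent.P078.Expected.Leverage.Ops

/-!
The operators of the colours and restricted inverses.
-/

noncomputable section

open MeasureTheory Filter Topology
open scoped ENNReal lp RealInnerProductSpace

namespace Vale.Agent.P078.Expected.Leverage

universe u

variable {Y : Type u}

theorem ext_ker {S T : Endo Y} (h : ∀ x y, ker S x y = ker T x y) : S = T :=
  ContinuousLinearMap.ext fun v => lp.ext (funext fun x =>
    ((hasSum_ker S v x).congr_fun fun z => by rw [h]).unique (hasSum_ker T v x))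

theorem isSelfAdjoint_of_ker {T : Endo Y} (h : ∀ x y, ker T x y = ker T y x) : IsSelfAdjoint T :=
  ext_ker fun x y => by rw [ker_star, h]

theorem inner_mul_self (T : Endo Y) (v : H2 Y) : ⟪v, (T * star T) v⟫ = ‖star T v‖ ^ 2 := by
  rw [mul_apply_eq_comp, ← inner_star_left, real_inner_self_eq_norm_sq]

theorem inner_sum_mul_star {ι : Type*} (s : Finset ι) (T : ι → Endo Y) (v : H2 Y) :
    ⟪v, (∑ i ∈ s, T i * star (T i)) v⟫ = ∑ i ∈ s, ‖star (T i) v‖ ^ 2 := by
  rw [sum_apply, inner_sum]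
  exact Finset.sum_congr rfl fun i _ => inner_mul_self (T i) v

open Classical in
theorem exists_proj (s : Set Y) : ∃ T : Endo Y,
    ∀ (v : H2 Y) x, (T v : ∀ _, ℝ) x = s.indicator (fun _ => (1 : ℝ)) x * (v : ∀ _, ℝ) x :=
  (exists_mult_op (s.indicator fun _ => (1 : ℝ)) zero_le_one fun x => by
    by_cases h : x ∈ s <;> simp [h]).imp fun _ h => h.2

/-- The projection onto the functions supported in a set. -/
def proj (s : Set Y) : Endo Y := (exists_proj s).choose

theorem proj_apply (s : Set Y) (v : H2 Y) (x : Y) :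
    (proj s v : ∀ _, ℝ) x = s.indicator (fun _ => (1 : ℝ)) x * (v : ∀ _, ℝ) x :=
  (exists_proj s).choose_spec v x

theorem proj_of_mem {s : Set Y} {v : H2 Y} {x : Y} (h : x ∈ s) :
    (proj s v : ∀ _, ℝ) x = (v : ∀ _, ℝ) x := by simp [proj_apply, h]

theorem proj_of_notMem {s : Set Y} {v : H2 Y} {x : Y} (h : x ∉ s) :
    (proj s v : ∀ _, ℝ) x = 0 := by simp [proj_apply, h]

theorem proj_mul_self (s : Set Y) : proj s * proj s = proj s :=
  ContinuousLinearMap.ext fun v => lp.ext (funext fun x => by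
    rw [mul_apply_eq_comp]
    by_cases h : x ∈ s <;> simp [proj_of_mem, proj_of_notMem, h])

theorem ker_proj (s : Set Y) [DecidableEq Y] (x y : Y) :
    ker (proj s) x y = if x = y then s.indicator (fun _ => (1 : ℝ)) x else 0 := by
  rw [ker, proj_apply]
  rcases eq_or_ne x y with rfl | h <;> simp [dirac_self, dirac_ne, *]

theorem isSelfAdjoint_proj (s : Set Y) : IsSelfAdjoint (proj s) := by
  classical
  refine isSelfAdjoint_of_ker fun x y => ?_
  rw [ker_proj, ker_proj]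
  rcases eq_or_ne x y with rfl | h
  · rfl
  · rw [if_neg h, if_neg h.symm]

theorem proj_dirac {s : Set Y} {x : Y} (h : x ∈ s) : proj s (dirac x) = dirac x :=
  lp.ext (funext fun y => by
    by_cases hy : y ∈ s
    · rw [proj_of_mem hy]
    · rw [proj_of_notMem hy, dirac_ne fun e : y = x => hy (e ▸ h)])

theorem proj_dirac_not {s : Set Y} {x : Y} (h : x ∉ s) : proj s (dirac x) = 0 :=
  lp.ext (funext fun y => by
    by_cases hy : y ∈ s
    · rw [proj_of_mem hy, dirac_ne fun e : y = x => h (e ▸ hy)]; rfl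
    · rw [proj_of_notMem hy]; rfl)

theorem norm_sq_proj_add (s : Set Y) (v : H2 Y) :
    ‖proj s v‖ ^ 2 + ‖v - proj s v‖ ^ 2 = ‖v‖ ^ 2 := by
  have h : ⟪proj s v, v⟫ = ‖proj s v‖ ^ 2 := by
    rw [← real_inner_self_eq_norm_sq]
    conv_rhs => rw [inner_comm_of_sa (isSelfAdjoint_proj s), ← mul_apply_eq_comp, proj_mul_self,
      ← inner_comm_of_sa (isSelfAdjoint_proj s)]
  rw [norm_sub_sq_real, real_inner_comm, h]
  ring

theorem isOp_proj [MeasurableSpace Y] {μ : Measure Y} (Rl : Rel μ) {s : Set Y}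
    (hs : MeasurableSet s) : Rl.IsOp (proj s) := by
  classical
  exact (Rel.Meas.diag (measurable_const.indicator hs)).congr (ker_proj s)

/-- A restricted inverse `S` of a coercive operator, as a series. -/
structure IsGreen (s : Set Y) (A S : Endo Y) (κ : ℝ) : Prop where
  sa : IsSelfAdjoint S
  left : proj s * S = S
  right : S * proj s = S
  inv : proj s * A * S = proj s
  series : HasSum (fun k => κ⁻¹ • ((1 - κ⁻¹ • (proj s * A * proj s + (1 - proj s))) ^ k * proj s)) S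

theorem exists_green {s : Set Y} {A : Endo Y} (hA : IsSelfAdjoint A) {ε κ : ℝ} (hε : 0 < ε)
    (hκ : 1 ≤ κ) (hlo : ∀ v, ε * ‖v‖ ^ 2 ≤ ⟪v, A v⟫)
    (hhi : ∀ v, ⟪v, A v⟫ ≤ κ * ‖v‖ ^ 2) : ∃ S, IsGreen s A S κ := by
  set E := proj s with hE
  have hEs : IsSelfAdjoint E := isSelfAdjoint_proj s
  have hEE : E * E = E := proj_mul_self s
  set P := E * A * E + (1 - E) with hP
  have hEAE : IsSelfAdjoint (E * A * E) := by
    conv => arg 1; rw [show E * A * E = star E * A * E by rw [hEs.star_eq]]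
    exact hA.conjugate' E
  have hPs : IsSelfAdjoint P := hEAE.add ((IsSelfAdjoint.one _).sub hEs)
  have hform : ∀ v, ⟪v, P v⟫ = ⟪E v, A (E v)⟫ + ‖v - E v‖ ^ 2 := fun v => by
    have h1 : ⟪v, E (A (E v))⟫ = ⟪E v, A (E v)⟫ := (inner_comm_of_sa hEs _ _).symm
    have h2 : ⟪v, v - E v⟫ = ‖v - E v‖ ^ 2 := by
      have := norm_sq_proj_add s v
      rw [norm_sub_sq_real] at this ⊢
      rw [inner_sub_right, real_inner_self_eq_norm_sq]
      rw [← hE] at this
      linarith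
    simp only [hP, add_apply, sub_apply, mul_apply_eq_comp, one_apply_eq_self,
      inner_add_right, h1, h2]
  have hε' : 0 < min ε 1 := lt_min hε one_pos
  have hnorm : ‖(1 : Endo Y) - κ⁻¹ • P‖ < 1 := by
    refine norm_one_sub_lt hPs hε' ((min_le_right ε 1).trans hκ) (fun v => ?_) fun v => ?_
    · rw [hform, ← norm_sq_proj_add s v, mul_add, ← hE]
      exact add_le_add ((mul_le_mul_of_nonneg_right (min_le_left _ _) (sq_nonneg _)).trans (hlo _))
        (mul_le_of_le_one_left (sq_nonneg _) (min_le_right _ _))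
    · rw [hform, ← norm_sq_proj_add s v, mul_add, ← hE]
      exact add_le_add (hhi _) (le_mul_of_one_le_left (sq_nonneg _) hκ)
  obtain ⟨J, hJs, hPJ, hJP⟩ := hasSum_neumann (zero_lt_one.trans_le hκ) hnorm
  have hEP : E * P = P * E := by
    simp only [hP, mul_add, add_mul, mul_sub, sub_mul, mul_one, one_mul, hEE, sub_self, add_zero,
      ← mul_assoc, mul_assoc _ E E]
  have hEJ : E * J = J * E := by
    calc E * J = J * P * E * J := by rw [hJP, one_mul]
      _ = J * (E * P) * J := by rw [hEP]; simp only [mul_assoc]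
      _ = J * E := by simp only [mul_assoc, hPJ, mul_one]
  have hJsa : IsSelfAdjoint J := by
    have h1 : star J * P = 1 := by rw [← hPs.star_eq, ← star_mul, hPJ, star_one]
    calc star J = star J * (P * J) := by rw [hPJ, mul_one]
      _ = J := by rw [← mul_assoc, h1, one_mul]
  refine ⟨J * E, ?_, ?_, ?_, ?_, ?_⟩
  · rw [IsSelfAdjoint, star_mul, hEs.star_eq, hJsa.star_eq, hEJ]
  · rw [← mul_assoc, hEJ, mul_assoc, hEE]
  · rw [mul_assoc, hEE]
  · have h2 : E * P * E = E * A * E := by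
      simp only [hP, mul_add, mul_sub, mul_one, hEE, sub_self, add_zero, mul_assoc, ← mul_assoc E E]
    calc E * A * (J * E) = E * A * (E * J) := by rw [hEJ]
      _ = E * P * E * J := by rw [← mul_assoc, h2]
      _ = E * (P * E) * J := by simp only [mul_assoc]
      _ = E * E * (P * J) := by rw [← hEP]; simp only [mul_assoc]
      _ = E := by rw [hPJ, mul_one, hEE]
  · simpa only [smul_mul_assoc] using hJs.mul_right E

variable [MeasurableSpace Y] {μ : Measure Y} {Rl : Rel μ} {r : ℕ}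

theorem IsGreen.isOp {s : Set Y} (hs : MeasurableSet s) {A S : Endo Y} {κ : ℝ}
    (h : IsGreen s A S κ) (hA : Rl.IsOp A) : Rl.IsOp S :=
  Rel.IsOp.hasSum h.series fun k =>
    ((((Rel.IsOp.one).sub ((((isOp_proj Rl hs).mul hA).mul (isOp_proj Rl hs)).add
      ((Rel.IsOp.one).sub (isOp_proj Rl hs)) |>.smul κ⁻¹)).pow k).mul (isOp_proj Rl hs)).smul κ⁻¹

namespace Data

variable (D : Data Rl r)

theorem row_le_two (j : Fin r) (x : Y) (s : Finset Y) :
    ∑ y ∈ s, D.N j x y * D.t y ≤ 2 * D.t x :=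
  (D.row j x s).trans (mul_le_mul_of_nonneg_right (by linarith [D.a_le j x, D.hτ]) (D.t_pos x).le)

theorem exists_nop (j : Fin r) : ∃ T : Endo Y, ‖T‖ ≤ 2 ∧
    ∀ (v : H2 Y) x, HasSum (fun y => D.N j x y * (v : ∀ _, ℝ) y) ((T v : ∀ _, ℝ) x) :=
  exists_kernel_op (D.N_nonneg j) (D.N_symm j) D.t_pos zero_le_two (D.row_le_two j)

/-- The off-diagonal operator. -/
def nop (j : Fin r) : Endo Y := (D.exists_nop j).choose

theorem hasSum_nop (j : Fin r) (v : H2 Y) (x : Y) :
    HasSum (fun y => D.N j x y * (v : ∀ _, ℝ) y) ((D.nop j v : ∀ _, ℝ) x) :=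
  (D.exists_nop j).choose_spec.2 v x

theorem norm_nop (j : Fin r) : ‖D.nop j‖ ≤ 2 := (D.exists_nop j).choose_spec.1

theorem ker_nop (j : Fin r) (x y : Y) : ker (D.nop j) x y = D.N j x y := by
  refine (D.hasSum_nop j (dirac y) x).unique ?_
  convert hasSum_single y fun z (hz : z ≠ y) => ?_
  · rw [dirac_self, mul_one]
  · rw [dirac_ne hz, mul_zero]

theorem exists_isL (j : Fin r) : ∃ T, D.IsL j T := by
  obtain ⟨A, -, hA⟩ := exists_mult_op (D.a j) zero_le_two fun x =>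
    abs_le.2 ⟨by linarith [D.a_lower j x, D.hτ], D.a_le j x⟩
  refine ⟨A - D.nop j, fun v x => ?_⟩
  rw [sub_apply, lp.coeFn_sub, Pi.sub_apply, hA, (D.hasSum_nop j v x).tsum_eq]

theorem isOp_nop (j : Fin r) : Rl.IsOp (D.nop j) :=
  (D.N_kernel j).toMeas.congr (D.ker_nop j)

variable {D} in
theorem IsWeight.pos {ω : Fin r → Y → ℝ} (h : D.IsWeight ω) (j : Fin r) (x : Y) : 0 < ω j x :=
  lt_of_lt_of_le (add_pos_of_nonneg_of_pos (D.R_nonneg j x) D.hζ) (h.2 j x).1

variable {D} in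
theorem IsWeight.max_eq {ω : Fin r → Y → ℝ} (h : D.IsWeight ω) (j : Fin r) (x : Y) :
    max (ω j x) D.ζ = ω j x :=
  max_eq_left (le_trans (le_add_of_nonneg_left (D.R_nonneg j x)) (h.2 j x).1)

theorem exists_isM {ω : Fin r → Y → ℝ} (_hω : D.IsWeight ω) (j : Fin r) : ∃ T, D.IsM ω j T := by
  obtain ⟨T, -, hT⟩ := exists_mult_op (fun x => (√(max (ω j x) D.ζ))⁻¹)
    (inv_nonneg.2 (Real.sqrt_nonneg D.ζ)) fun x => by
    rw [abs_of_nonneg (inv_nonneg.2 (Real.sqrt_nonneg _))]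
    exact inv_anti₀ (Real.sqrt_pos.2 D.hζ) (Real.sqrt_le_sqrt (le_max_right _ _))
  exact ⟨T, hT⟩

variable {D} {j : Fin r} {T : Endo Y}

theorem IsL.ker_eq [DecidableEq Y] (h : D.IsL j T) (x y : Y) :
    ker T x y = (if x = y then D.a j x else 0) - D.N j x y := by
  rw [ker, h, ← ker_nop D j, ker, (D.hasSum_nop j _ x).tsum_eq]
  congr 1
  rcases eq_or_ne x y with rfl | hxy <;> simp [dirac_self, dirac_ne, *]

theorem IsL.sa (h : D.IsL j T) : IsSelfAdjoint T := by
  classical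
  refine isSelfAdjoint_of_ker fun x y => ?_
  rw [h.ker_eq, h.ker_eq, D.N_symm j x y]
  rcases eq_or_ne x y with rfl | hxy
  · rfl
  · rw [if_neg hxy, if_neg hxy.symm]

theorem IsL.isOp (h : D.IsL j T) : Rl.IsOp T := by
  classical
  exact ((Rel.Meas.diag (D.a_meas j)).map₂ (D.N_kernel j).toMeas
    (φ := fun a b : ℝ => a - b) (measurable_fst.sub measurable_snd) (sub_zero 0)).congr h.ker_eq

theorem IsL.eq_apply (h : D.IsL j T) (v : H2 Y) (x : Y) :
    (T v : ∀ _, ℝ) x = D.a j x * (v : ∀ _, ℝ) x - (D.nop j v : ∀ _, ℝ) x := by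
  rw [h, (D.hasSum_nop j v x).tsum_eq]

theorem IsL.le_inner (h : D.IsL j T) (v : H2 Y) : D.τ * ‖v‖ ^ 2 ≤ ⟪v, T v⟫ := by
  set f : Y → ℝ := fun x => (v : ∀ _, ℝ) x with hf
  have hw0 : ∀ x, 0 ≤ (D.a j x - D.τ) * f x ^ 2 := fun x =>
    mul_nonneg (sub_nonneg.2 (D.a_lower j x)) (sq_nonneg _)
  have hws : Summable fun x => (D.a j x - D.τ) * f x ^ 2 :=
    ((hasSum_sq v).summable.mul_left 2).of_nonneg_of_le hw0 fun x =>
      mul_le_mul_of_nonneg_right (by linarith [D.a_le j x, D.hτ]) (sq_nonneg _)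
  set B := ∑' x, (D.a j x - D.τ) * f x ^ 2 with hB
  have hfin : ∀ s u : Finset Y, ∑ x ∈ s, f x * ∑ y ∈ u, D.N j x y * f y ≤ B := fun s u => by
    have h1 : ∀ s' u' : Finset Y,
        ∑ x ∈ s', ∑ y ∈ u', D.N j x y * D.t y / D.t x * f x ^ 2 ≤ B := fun s' u' => by
      refine le_trans (Finset.sum_le_sum fun x _ => ?_) (hws.sum_le_tsum s' fun x _ => hw0 x)
      rw [← Finset.sum_mul, ← Finset.sum_div]
      exact mul_le_mul_of_nonneg_right ((div_le_iff₀ (D.t_pos x)).2 (D.row j x u')) (sq_nonneg _)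
    have h2 : ∀ x y, f x * (D.N j x y * f y) ≤
        (D.N j x y * D.t y / D.t x * f x ^ 2 + D.N j y x * D.t x / D.t y * f y ^ 2) / 2 := by
      intro x y
      have hx := D.t_pos x
      have hy := D.t_pos y
      have e : (D.N j x y * D.t y / D.t x * f x ^ 2 + D.N j y x * D.t x / D.t y * f y ^ 2) / 2 -
          f x * (D.N j x y * f y) =
          D.N j x y / (2 * D.t x * D.t y) * (D.t y * f x - D.t x * f y) ^ 2 := by
        rw [D.N_symm j y x]
        field_simp
        ring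
      nlinarith [mul_nonneg (div_nonneg (D.N_nonneg j x y) (by positivity : 0 ≤ 2 * D.t x * D.t y))
        (sq_nonneg (D.t y * f x - D.t x * f y))]
    simp only [Finset.mul_sum]
    refine (Finset.sum_le_sum fun x _ => Finset.sum_le_sum fun y _ => h2 x y).trans ?_
    simp only [← Finset.sum_div, Finset.sum_add_distrib]
    have h3 : ∑ x ∈ s, ∑ y ∈ u, D.N j y x * D.t x / D.t y * f y ^ 2 ≤ B := by
      rw [Finset.sum_comm]
      exact h1 u s
    linarith [h1 s u]
  have hN : ⟪v, D.nop j v⟫ ≤ B := by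
    refine hasSum_le_of_sum_le (lp.hasSum_inner (𝕜 := ℝ) v (D.nop j v)) fun s => ?_
    have ht : Tendsto (fun u : Finset Y => ∑ x ∈ s, f x * ∑ y ∈ u, D.N j x y * f y) atTop
        (𝓝 (∑ x ∈ s, f x * (D.nop j v : ∀ _, ℝ) x)) :=
      tendsto_finsetSum s fun x _ => (D.hasSum_nop j v x).const_mul (f x)
    refine le_trans (le_of_eq (Finset.sum_congr rfl fun x _ => ?_)) (le_of_tendsto' ht (hfin s))
    simp [hf, mul_comm]
  have hL : HasSum (fun x => (D.a j x - D.τ) * f x ^ 2 + D.τ * f x ^ 2 -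
      f x * (D.nop j v : ∀ _, ℝ) x) ⟪v, T v⟫ := by
    refine (lp.hasSum_inner (𝕜 := ℝ) v (T v)).congr_fun fun x => ?_
    rw [h.eq_apply]
    simp [hf]
    ring
  have hR := (hws.hasSum.add ((hasSum_sq v).mul_left D.τ)).sub
    ((lp.hasSum_inner (𝕜 := ℝ) v (D.nop j v)).congr_fun
      (g := fun x => f x * (D.nop j v : ∀ _, ℝ) x) fun x => by simp [hf, mul_comm])
  have := hL.unique hR
  linarith

theorem IsL.norm_le (h : D.IsL j T) : ‖T‖ ≤ 4 := by
  obtain ⟨A, hAn, hA⟩ := exists_mult_op (D.a j) zero_le_two fun x =>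
    abs_le.2 ⟨by linarith [D.a_lower j x, D.hτ], D.a_le j x⟩
  have : T = A - D.nop j := ContinuousLinearMap.ext fun v => lp.ext (funext fun x => by
    rw [sub_apply, lp.coeFn_sub, Pi.sub_apply, hA, h.eq_apply])
  rw [this]
  exact (norm_sub_le _ _).trans (by linarith [D.norm_nop j])

variable {ω : Fin r → Y → ℝ}

theorem IsM.eq_apply (h : D.IsM ω j T) (hω : D.IsWeight ω) (v : H2 Y) (x : Y) :
    (T v : ∀ _, ℝ) x = (√(ω j x))⁻¹ * (v : ∀ _, ℝ) x := by
  rw [h, hω.max_eq]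

theorem IsM.ker_eq [DecidableEq Y] (h : D.IsM ω j T) (hω : D.IsWeight ω) (x y : Y) :
    ker T x y = if x = y then (√(ω j x))⁻¹ else 0 := by
  rw [ker, h.eq_apply hω]
  rcases eq_or_ne x y with rfl | hxy <;> simp [dirac_self, dirac_ne, *]

theorem IsM.sa (h : D.IsM ω j T) (hω : D.IsWeight ω) : IsSelfAdjoint T := by
  classical
  refine isSelfAdjoint_of_ker fun x y => ?_
  rw [h.ker_eq hω, h.ker_eq hω]
  rcases eq_or_ne x y with rfl | hxy
  · rfl
  · rw [if_neg hxy, if_neg hxy.symm]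

theorem IsM.isOp (h : D.IsM ω j T) (hω : D.IsWeight ω) : Rl.IsOp T := by
  classical
  exact (Rel.Meas.diag ((Real.continuous_sqrt.measurable.comp (hω.1 j)).inv)).congr
    (h.ker_eq hω)

theorem IsM.norm_bounds (h : D.IsM ω j T) (hω : D.IsWeight ω) (v : H2 Y) :
    ‖v‖ ^ 2 ≤ ‖T v‖ ^ 2 ∧ ‖T v‖ ^ 2 ≤ 1 / D.ζ * ‖v‖ ^ 2 := by
  constructor
  · refine hasSum_le (fun x => ?_) (hasSum_sq v) (hasSum_sq (T v))
    rw [h.eq_apply hω, mul_pow, inv_pow, Real.sq_sqrt (hω.pos j x).le]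
    exact le_mul_of_one_le_left (sq_nonneg _) ((one_le_inv₀ (hω.pos j x)).2 (hω.2 j x).2)
  · refine hasSum_le (fun x => ?_) (hasSum_sq (T v)) ((hasSum_sq v).mul_left (1 / D.ζ))
    rw [h.eq_apply hω, mul_pow, inv_pow, Real.sq_sqrt (hω.pos j x).le, one_div]
    exact mul_le_mul_of_nonneg_right
      (inv_anti₀ D.hζ (le_trans (le_add_of_nonneg_left (D.R_nonneg j x)) (hω.2 j x).1)) (sq_nonneg _)

theorem psi_le_one (hω : D.IsWeight ω) (j : Fin r) (x : Y) :
    0 ≤ D.psi ω j x ∧ D.psi ω j x ≤ 1 :=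
  ⟨div_nonneg (D.R_nonneg j x) (hω.pos j x).le,
    (div_le_one (hω.pos j x)).2 (le_trans (le_add_of_nonneg_right D.hζ.le) (hω.2 j x).1)⟩

end Data

end Vale.Agent.P078.Expected.Leverage
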