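import Mathlib

/-!
A measure preserving relation with countable classes, kernels on it, and the data of the leverage
inequality.
-/

noncomputable section

open MeasureTheory
open scoped ENNReal lp InnerProductSpace

namespace Vale.Agent.P078.Expected.Leverage

universe u

variable {Y : Type u} [MeasurableSpace Y]

/-- A measure preserving equivalence relation given by countably many partial bijections. -/
structure Rel (μ : Measure Y) where
  map : ℕ → PartialEquiv Y Y
  exists_refl : ∀ x, ∃ k, x ∈ (map k).source ∧ map k x = x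
  exists_comp : ∀ k l, ∀ x ∈ (map k).source, map k x ∈ (map l).source →
    ∃ m, x ∈ (map m).source ∧ map m x = map l (map k x)
  exists_symm : ∀ k, ∀ x ∈ (map k).source,
    ∃ m, map k x ∈ (map m).source ∧ map m (map k x) = x
  meas_source : ∀ k, MeasurableSet (map k).source
  meas_target : ∀ k, MeasurableSet (map k).target
  meas_map : ∀ k, Measurable fun x : (map k).source => map k x
  meas_symm : ∀ k, Measurable fun x : (map k).target => (map k).symm x
  meas_eq : ∀ k l, MeasurableSet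
    {x | x ∈ (map k).source ∧ x ∈ (map l).source ∧ map k x = map l x}
  meas_eq_comp : ∀ k l m, MeasurableSet
    {x | x ∈ (map k).source ∧ map k x ∈ (map l).source ∧ x ∈ (map m).source ∧
      map l (map k x) = map m x}
  preserves : ∀ k (F : Y → ℝ≥0∞), Measurable F →
    ∫⁻ x in (map k).source, F (map k x) ∂μ = ∫⁻ y in (map k).target, F y ∂μ

namespace Rel

variable {μ : Measure Y} (R : Rel μ)

/-- Two points in the same class. -/
def Same (x y : Y) : Prop := ∃ k, x ∈ (R.map k).source ∧ R.map k x = y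

/-- A kernel supported on the classes and measurable along the maps. -/
structure IsKernel (N : Y → Y → ℝ) : Prop where
  supp : ∀ x y, ¬R.Same x y → N x y = 0
  meas : ∀ k, Measurable fun x : (R.map k).source => N x (R.map k x)

end Rel

/-- The Hilbert space of square summable functions on the points. -/
abbrev H2 (Y : Type u) : Type u := ℓ^2(Y, ℝ)

/-- The point mass. -/
def dirac (x : Y) : H2 Y := by
  classical exact lp.single 2 x (1 : ℝ)

/-- The data of the inequality: weights `R`, diagonals `a`, symmetric off-diagonal kernels `N`,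
a positive function `t` on which each operator is positive, and a symmetry `Φ` which doubles `t`. -/
structure Data {μ : Measure Y} (Rl : Rel μ) (r : ℕ) where
  ζ : ℝ
  τ : ℝ
  R : Fin r → Y → ℝ
  a : Fin r → Y → ℝ
  N : Fin r → Y → Y → ℝ
  t : Y → ℝ
  hζ : 0 < ζ
  hζ1 : ζ ≤ 1 / 2
  hτ : 0 < τ
  R_nonneg : ∀ j x, 0 ≤ R j x
  R_le : ∀ j x, R j x ≤ 1 / 2
  R_meas : ∀ j, Measurable (R j)
  a_lower : ∀ j x, τ ≤ a j x
  a_le : ∀ j x, a j x ≤ 2
  a_meas : ∀ j, Measurable (a j)
  N_kernel : ∀ j, Rl.IsKernel (N j)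
  N_nonneg : ∀ j x y, 0 ≤ N j x y
  N_symm : ∀ j x y, N j x y = N j y x
  t_pos : ∀ x, 0 < t x
  t_meas : Measurable t
  row : ∀ j x (s : Finset Y), ∑ y ∈ s, N j x y * t y ≤ (a j x - τ) * t x
  Φ : Y ≃ᵐ Y
  t_Φ : ∀ x, t (Φ x) = 2 * t x
  R_Φ : ∀ j x, R j (Φ x) = R j x
  a_Φ : ∀ j x, a j (Φ x) = a j x
  N_Φ : ∀ j x y, N j (Φ x) (Φ y) = N j x y
  μ_Φ : μ.map Φ = (2 : ℝ≥0∞) • μ

namespace Data

variable {μ : Measure Y} {Rl : Rel μ} {r : ℕ} (D : Data Rl r)

/-- The window of one octave of `t`. -/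
def window : Set Y := {x | 1 < D.t x ∧ D.t x ≤ 2}

/-- A bijection which multiplies `t` by `k` and leaves the rest of the data unchanged. -/
def IsScale (k : ℝ) (Ψ : Y ≃ Y) : Prop :=
  (∀ x, D.t (Ψ x) = k * D.t x) ∧ (∀ j x, D.R j (Ψ x) = D.R j x) ∧
    (∀ j x, D.a j (Ψ x) = D.a j x) ∧ ∀ j x y, D.N j (Ψ x) (Ψ y) = D.N j x y

/-- `ω` is an admissible weight: measurable, between `R + ζ` and `1`. -/
def IsWeight (ω : Fin r → Y → ℝ) : Prop :=
  (∀ j, Measurable (ω j)) ∧ ∀ j x, D.R j x + D.ζ ≤ ω j x ∧ ω j x ≤ 1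

/-- The weight of one colour in the leverage. -/
def psi (ω : Fin r → Y → ℝ) (j : Fin r) (x : Y) : ℝ := D.R j x / ω j x

/-- `T` is the operator with diagonal `d` and off-diagonal `-N`. -/
def IsL (j : Fin r) (T : H2 Y →L[ℝ] H2 Y) : Prop :=
  ∀ v x, (T v : ∀ _, ℝ) x = D.a j x * v x - ∑' y, D.N j x y * v y

/-- `T` is multiplication by the inverse square root of the weight. -/
def IsM (ω : Fin r → Y → ℝ) (j : Fin r) (T : H2 Y →L[ℝ] H2 Y) : Prop :=
  ∀ v x, (T v : ∀ _, ℝ) x = (√(max (ω j x) D.ζ))⁻¹ * v x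

end Data

/-- The truncated Neumann inverse. -/
def neum {E : Type*} [NormedAddCommGroup E] [NormedSpace ℝ E] (G : E →L[ℝ] E) (c : ℝ) (n : ℕ) :
    E →L[ℝ] E :=
  c⁻¹ • ∑ k ∈ Finset.range n, (1 - c⁻¹ • G) ^ k

end Vale.Agent.P078.Expected.Leverage
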