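import Vale.Agent.P078.Expected.Leverage.Rel

/-!
Bounded operators on the square summable functions on the points with measurable kernels, kernel
operators from the Schur test, and truncated inverses.
-/

noncomputable section

open MeasureTheory Filter Topology
open scoped ENNReal lp RealInnerProductSpace

namespace Vale.Agent.P078.Expected.Leverage

universe u

variable {Y : Type u}

abbrev Endo (Y : Type u) : Type u := H2 Y →L[ℝ] H2 Y

theorem dirac_self (x : Y) : (dirac x : ∀ _, ℝ) x = 1 := by simp [dirac]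

theorem dirac_ne {x y : Y} (h : y ≠ x) : (dirac x : ∀ _, ℝ) y = 0 := by
  classical
  simp [dirac, lp.single_apply, h]

theorem inner_dirac_left (x : Y) (v : H2 Y) : ⟪dirac x, v⟫ = (v : ∀ _, ℝ) x := by
  classical
  simp [dirac, lp.inner_single_left]

theorem inner_dirac_right (x : Y) (v : H2 Y) : ⟪v, dirac x⟫ = (v : ∀ _, ℝ) x := by
  rw [real_inner_comm, inner_dirac_left]

theorem norm_dirac (x : Y) : ‖dirac x‖ = 1 := by
  have h : ⟪dirac x, dirac x⟫ = 1 := by rw [inner_dirac_left, dirac_self]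
  rw [real_inner_self_eq_norm_sq] at h
  exact (sq_eq_one_iff.1 h).resolve_right fun hc => by linarith [norm_nonneg (dirac x)]

theorem hasSum_sq (v : H2 Y) : HasSum (fun x => (v : ∀ _, ℝ) x ^ 2) (‖v‖ ^ 2) := by
  have h := lp.hasSum_inner (𝕜 := ℝ) v v
  rw [real_inner_self_eq_norm_sq] at h
  refine h.congr_fun fun x => ?_
  rw [real_inner_self_eq_norm_sq, Real.norm_eq_abs, sq_abs]

theorem ofReal_norm_sq (v : H2 Y) :
    ENNReal.ofReal (‖v‖ ^ 2) = ∑' x, ENNReal.ofReal ((v : ∀ _, ℝ) x ^ 2) := by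
  rw [← (hasSum_sq v).tsum_eq, ENNReal.ofReal_tsum_of_nonneg (fun x => sq_nonneg _)
    (hasSum_sq v).summable]

theorem sum_sq_le (v : H2 Y) (s : Finset Y) : ∑ x ∈ s, (v : ∀ _, ℝ) x ^ 2 ≤ ‖v‖ ^ 2 :=
  sum_le_hasSum s (fun _ _ => sq_nonneg _) (hasSum_sq v)

/-- The kernel of an operator. -/
def ker (T : Endo Y) (x y : Y) : ℝ := (T (dirac y) : ∀ _, ℝ) x

theorem hasSum_ker (T : Endo Y) (v : H2 Y) (x : Y) :
    HasSum (fun z => ker T x z * (v : ∀ _, ℝ) z) ((T v : ∀ _, ℝ) x) := by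
  classical
  have h := (lp.hasSum_single (by norm_num : (2 : ℝ≥0∞) ≠ ⊤) v).mapL
    ((innerSL ℝ (dirac x)).comp T)
  simp only [ContinuousLinearMap.comp_apply, innerSL_apply_apply, inner_dirac_left] at h
  refine h.congr_fun fun z => ?_
  have e : lp.single 2 z ((v : ∀ _, ℝ) z) = (v : ∀ _, ℝ) z • dirac z := by
    rw [dirac, ← lp.single_smul, smul_eq_mul, mul_one]
  rw [e, map_smul, lp.coeFn_smul, Pi.smul_apply, smul_eq_mul, mul_comm]
  rfl

theorem ker_mul (S T : Endo Y) (x y : Y) : ker (S * T) x y = ∑' z, ker S x z * ker T z y :=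
  (hasSum_ker S (T (dirac y)) x).tsum_eq.symm

theorem ker_star (T : Endo Y) (x y : Y) : ker (star T) x y = ker T y x := by
  rw [ker, ker, ← inner_dirac_left, ContinuousLinearMap.star_eq_adjoint,
    ContinuousLinearMap.adjoint_inner_right, inner_dirac_right]

theorem apply_dirac_sq (T : Endo Y) (y : Y) :
    ENNReal.ofReal (‖T (dirac y)‖ ^ 2) = ∑' x, ENNReal.ofReal (ker T x y ^ 2) :=
  ofReal_norm_sq _

theorem tendsto_ker {ι : Type*} {l : Filter ι} {f : ι → Endo Y} {T : Endo Y}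
    (h : Tendsto f l (𝓝 T)) (x y : Y) : Tendsto (fun i => ker (f i) x y) l (𝓝 (ker T x y)) := by
  have h1 : Tendsto (fun i => ⟪dirac x, f i (dirac y)⟫) l (𝓝 ⟪dirac x, T (dirac y)⟫) :=
    tendsto_const_nhds.inner (((ContinuousLinearMap.apply ℝ (H2 Y) (dirac y)).continuous.tendsto
      T).comp h)
  simpa only [inner_dirac_left, ker] using h1

theorem inner_star_left (T : Endo Y) (u v : H2 Y) : ⟪star T u, v⟫ = ⟪u, T v⟫ := by
  rw [ContinuousLinearMap.star_eq_adjoint, ContinuousLinearMap.adjoint_inner_left]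

theorem inner_star_right (T : Endo Y) (u v : H2 Y) : ⟪u, star T v⟫ = ⟪T u, v⟫ := by
  rw [ContinuousLinearMap.star_eq_adjoint, ContinuousLinearMap.adjoint_inner_right]

theorem inner_comm_of_sa {T : Endo Y} (hT : IsSelfAdjoint T) (u v : H2 Y) :
    ⟪T u, v⟫ = ⟪u, T v⟫ := by
  conv_lhs => rw [← hT.star_eq]
  exact inner_star_left T u v

/-- A selfadjoint operator is bounded by the bound of its form. -/
theorem norm_le_of_form {T : Endo Y} (hT : IsSelfAdjoint T) {q : ℝ} (hq : 0 ≤ q)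
    (h : ∀ v, |⟪v, T v⟫| ≤ q * ‖v‖ ^ 2) : ‖T‖ ≤ q := by
  refine T.opNorm_le_bound hq fun v => ?_
  rcases eq_or_ne (T v) 0 with h0 | h0
  · rw [h0, norm_zero]; positivity
  have hv : v ≠ 0 := fun hv => h0 (by rw [hv, map_zero])
  have hvn : 0 < ‖v‖ := norm_pos_iff.2 hv
  set a : ℝ := ‖v‖ / ‖T v‖ with ha
  set w : H2 Y := a • T v with hw
  have hwn : ‖w‖ = ‖v‖ := by
    rw [hw, norm_smul, Real.norm_eq_abs, ha, abs_of_nonneg (by positivity),
      div_mul_cancel₀ _ (norm_ne_zero_iff.2 h0)]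
  have e1 : ⟪w, T v⟫ = ‖v‖ * ‖T v‖ := by
    rw [hw, real_inner_smul_left, real_inner_self_eq_norm_sq, ha]
    have : ‖T v‖ ≠ 0 := norm_ne_zero_iff.2 h0
    field_simp
  have e2 : ⟪w + v, T (w + v)⟫ - ⟪w - v, T (w - v)⟫ = 4 * ⟪w, T v⟫ := by
    have hc : ⟪v, T w⟫ = ⟪w, T v⟫ := by rw [← inner_comm_of_sa hT, real_inner_comm]
    simp only [map_add, map_sub, inner_add_left, inner_add_right, inner_sub_left, inner_sub_right,
      hc]
    ring
  have h1 := (abs_le.1 (h (w + v))).2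
  have h2 := (abs_le.1 (h (w - v))).1
  have h3 := parallelogram_law_with_norm ℝ w v
  rw [hwn] at h3
  have h4 : ‖v‖ * ‖T v‖ ≤ q * ‖v‖ * ‖v‖ := by
    nlinarith
  exact le_of_mul_le_mul_left (by linarith) hvn

/-- The image of a positive operator is bounded by its form. -/
theorem norm_sq_le_form {M : Endo Y} (hM : IsSelfAdjoint M) (hpos : ∀ v, 0 ≤ ⟪v, M v⟫) (v : H2 Y) :
    ‖M v‖ ^ 2 ≤ ‖M‖ * ⟪v, M v⟫ := by
  set C := ‖M‖ with hC
  have hC0 : 0 ≤ C := norm_nonneg _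
  have hMM : ⟪M v, M (M v)⟫ ≤ C * ‖M v‖ ^ 2 := by
    refine (real_inner_le_norm _ _).trans ?_
    refine (mul_le_mul_of_nonneg_left (M.le_opNorm _) (norm_nonneg _)).trans_eq ?_
    ring
  rcases hC0.eq_or_lt with h0 | h0
  · have : ‖M v‖ ≤ 0 := (M.le_opNorm v).trans (by rw [← hC, ← h0, zero_mul])
    rw [← h0, zero_mul]
    nlinarith [norm_nonneg (M v)]
  · have h := hpos (C • v - M v)
    have hc : ⟪v, M (M v)⟫ = ‖M v‖ ^ 2 := by
      rw [← inner_comm_of_sa hM, real_inner_self_eq_norm_sq]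
    simp only [map_sub, map_smul, inner_sub_left, inner_sub_right, inner_smul_left,
      inner_smul_right, real_inner_self_eq_norm_sq, hc, conj_trivial] at h
    nlinarith

/-- A truncated inverse. -/
theorem hasSum_neumann {A : Endo Y} {κ : ℝ} (hκ : 0 < κ) (h : ‖(1 : Endo Y) - κ⁻¹ • A‖ < 1) :
    ∃ J : Endo Y, HasSum (fun k => κ⁻¹ • (1 - κ⁻¹ • A) ^ k) J ∧ A * J = 1 ∧ J * A = 1 := by
  set a : Endo Y := 1 - κ⁻¹ • A with ha
  have hs : Summable fun k => a ^ k := summable_geometric_of_norm_lt_one h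
  refine ⟨κ⁻¹ • ∑' k, a ^ k, hs.hasSum.const_smul _, ?_, ?_⟩
  · have : A = κ • (1 - a) := by
      rw [ha, sub_sub_cancel, smul_smul, mul_inv_cancel₀ hκ.ne', one_smul]
    rw [this, smul_mul_smul_comm, mul_inv_cancel₀ hκ.ne', one_smul]
    exact mul_neg_geom_series a h
  · have : A = κ • (1 - a) := by
      rw [ha, sub_sub_cancel, smul_smul, mul_inv_cancel₀ hκ.ne', one_smul]
    rw [this, smul_mul_smul_comm, inv_mul_cancel₀ hκ.ne', one_smul]
    exact geom_series_mul_neg a h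

theorem norm_one_sub_lt {A : Endo Y} (hA : IsSelfAdjoint A) {ε κ : ℝ} (hε : 0 < ε) (hεκ : ε ≤ κ)
    (hlo : ∀ v, ε * ‖v‖ ^ 2 ≤ ⟪v, A v⟫) (hhi : ∀ v, ⟪v, A v⟫ ≤ κ * ‖v‖ ^ 2) :
    ‖(1 : Endo Y) - κ⁻¹ • A‖ < 1 := by
  have hκ : 0 < κ := hε.trans_le hεκ
  refine lt_of_le_of_lt (norm_le_of_form (q := 1 - κ⁻¹ * ε) ((IsSelfAdjoint.one _).sub
    ((IsSelfAdjoint.all κ⁻¹).smul hA)) ?_ fun v => ?_) (by linarith [mul_pos (inv_pos.2 hκ) hε])
  · rw [sub_nonneg, inv_mul_le_iff₀ hκ, mul_one]; exact hεκ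
  · have h1 := mul_le_mul_of_nonneg_left (hlo v) (inv_nonneg.2 hκ.le)
    have h2 := mul_le_mul_of_nonneg_left (hhi v) (inv_nonneg.2 hκ.le)
    rw [← mul_assoc, inv_mul_cancel₀ hκ.ne', one_mul] at h2
    simp only [sub_apply, one_apply_eq_self, smul_apply, inner_sub_right,
      real_inner_smul_right, real_inner_self_eq_norm_sq, abs_le]
    constructor <;> nlinarith [sq_nonneg ‖v‖]

section Measurable

variable [MeasurableSpace Y] {μ : Measure Y} (Rl : Rel μ)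

/-- An operator with a measurable kernel on the classes. -/
def Rel.IsOp (T : Endo Y) : Prop := Rl.Meas (ker T)

variable {Rl}

theorem Rel.Meas.congr {α : Type*} [MeasurableSpace α] [Zero α] {F G : Y → Y → α}
    (hF : Rl.Meas F) (h : ∀ x y, G x y = F x y) : Rl.Meas G := by
  rwa [show G = F from funext₂ h]

theorem Rel.IsOp.mul {S T : Endo Y} (hS : Rl.IsOp S) (hT : Rl.IsOp T) : Rl.IsOp (S * T) :=
  (Rel.Meas.tsum_mul hS hT fun x y => (hasSum_ker S (T (dirac y)) x).summable).congr (ker_mul S T)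

theorem Rel.IsOp.star {T : Endo Y} (hT : Rl.IsOp T) : Rl.IsOp (star T) :=
  (Rel.Meas.transpose hT).congr fun x y => ker_star T x y

theorem Rel.IsOp.add {S T : Endo Y} (hS : Rl.IsOp S) (hT : Rl.IsOp T) : Rl.IsOp (S + T) :=
  (hS.map₂ hT (φ := fun a b : ℝ => a + b) (measurable_fst.add measurable_snd) (add_zero 0)).congr
    fun x y => by simp [ker]

theorem Rel.IsOp.smul {T : Endo Y} (hT : Rl.IsOp T) (c : ℝ) : Rl.IsOp (c • T) :=
  (hT.comp (φ := fun a : ℝ => c * a) (measurable_const.mul measurable_id) (mul_zero c)).congr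
    fun x y => by simp [ker]

theorem Rel.IsOp.sub {S T : Endo Y} (hS : Rl.IsOp S) (hT : Rl.IsOp T) : Rl.IsOp (S - T) := by
  have := hS.add (hT.smul (-1))
  rwa [neg_one_smul, ← sub_eq_add_neg] at this

theorem Rel.IsOp.zero : Rl.IsOp (0 : Endo Y) :=
  ⟨fun x y _ => by simp [ker], fun k => by
    have : (fun x => ker (0 : Endo Y) x (Rl.app k x)) = fun _ => (0 : ℝ) := funext fun x => by
      simp [ker]
    rw [this, Set.indicator_zero]
    exact measurable_const⟩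

theorem Rel.IsOp.one : Rl.IsOp (1 : Endo Y) := by
  classical
  refine (Rel.Meas.diag (f := fun _ : Y => (1 : ℝ)) measurable_const).congr fun x y => ?_
  rcases eq_or_ne x y with rfl | h <;> simp [ker, dirac_self, dirac_ne, *]

theorem Rel.IsOp.sum {ι : Type*} (s : Finset ι) {f : ι → Endo Y} (h : ∀ i ∈ s, Rl.IsOp (f i)) :
    Rl.IsOp (∑ i ∈ s, f i) := by
  classical
  induction s using Finset.induction with
  | empty => simpa using Rel.IsOp.zero
  | insert a s ha ih =>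
    rw [Finset.sum_insert ha]
    exact (h a (Finset.mem_insert_self a s)).add (ih fun i hi => h i (Finset.mem_insert_of_mem hi))

theorem Rel.IsOp.pow {T : Endo Y} (hT : Rl.IsOp T) (k : ℕ) : Rl.IsOp (T ^ k) := by
  induction k with
  | zero => rw [pow_zero]; exact Rel.IsOp.one
  | succ k ih => rw [pow_succ]; exact ih.mul hT

theorem Rel.IsOp.limit {f : ℕ → Endo Y} {T : Endo Y} (h : Tendsto f atTop (𝓝 T))
    (hf : ∀ n, Rl.IsOp (f n)) : Rl.IsOp T := by
  refine ⟨fun x y hxy => tendsto_nhds_unique (tendsto_ker h x y) ?_, fun k => ?_⟩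
  · simp [(hf _).supp x y hxy]
  · refine measurable_of_tendsto_metrizable (fun n => (hf n).meas k) (tendsto_pi_nhds.2 fun x => ?_)
    by_cases hx : x ∈ (Rl.map k).source <;> simp [hx, tendsto_ker h]

theorem Rel.IsOp.hasSum {f : ℕ → Endo Y} {T : Endo Y} (h : HasSum f T)
    (hf : ∀ n, Rl.IsOp (f n)) : Rl.IsOp T :=
  Rel.IsOp.limit h.tendsto_sum_nat fun _ => Rel.IsOp.sum _ fun i _ => hf i

end Measurable

/-- The Schur test. -/
theorem schur {N : Y → Y → ℝ} (h0 : ∀ x y, 0 ≤ N x y) (hs : ∀ x y, N x y = N y x) {t : Y → ℝ}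
    (ht : ∀ x, 0 < t x) {C : ℝ} (hC : 0 ≤ C)
    (hrow : ∀ x (s : Finset Y), ∑ y ∈ s, N x y * t y ≤ C * t x) (v : H2 Y) :
    ∃ w : H2 Y, (∀ x, HasSum (fun y => N x y * (v : ∀ _, ℝ) y) ((w : ∀ _, ℝ) x)) ∧
      ‖w‖ ≤ C * ‖v‖ := by
  classical
  let g : Y → ℝ≥0∞ := fun y => ENNReal.ofReal ((v : ∀ _, ℝ) y ^ 2 / t y)
  have hCS : ∀ x (s : Finset Y), (∑ y ∈ s, N x y * |(v : ∀ _, ℝ) y|) ^ 2 ≤
      C * t x * ∑ y ∈ s, N x y * ((v : ∀ _, ℝ) y ^ 2 / t y) := fun x s => by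
    refine (Finset.sum_sq_le_sum_mul_sum_of_sq_le_mul s (f := fun y => N x y * t y)
      (g := fun y => N x y * ((v : ∀ _, ℝ) y ^ 2 / t y))
      (fun y _ => mul_nonneg (h0 x y) (ht y).le)
      (fun y _ => mul_nonneg (h0 x y) (div_nonneg (sq_nonneg _) (ht y).le))
      fun y _ => le_of_eq ?_).trans ?_
    · have := (ht y).ne'
      rw [mul_pow, sq_abs]
      field_simp
    · exact mul_le_mul_of_nonneg_right (hrow x s)
        (Finset.sum_nonneg fun y _ => mul_nonneg (h0 x y) (div_nonneg (sq_nonneg _) (ht y).le))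
  have hv2 : ∀ x, Summable fun y => N x y * ((v : ∀ _, ℝ) y ^ 2 / t y) := fun x => by
    refine summable_of_sum_le (fun y => mul_nonneg (h0 x y) (div_nonneg (sq_nonneg _) (ht y).le))
      (c := C / t x * ‖v‖ ^ 2) fun s => ?_
    refine le_trans ?_ (mul_le_mul_of_nonneg_left (sum_sq_le v s) (div_nonneg hC (ht x).le))
    rw [Finset.mul_sum]
    refine Finset.sum_le_sum fun y _ => ?_
    have h1 : N x y * t x ≤ C * t y := by
      simpa [hs y x] using hrow y {x}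
    rw [mul_div_assoc', div_mul_eq_mul_div, div_le_div_iff₀ (ht y) (ht x)]
    calc N x y * (v : ∀ _, ℝ) y ^ 2 * t x = N x y * t x * (v : ∀ _, ℝ) y ^ 2 := by ring
      _ ≤ C * t y * (v : ∀ _, ℝ) y ^ 2 := mul_le_mul_of_nonneg_right h1 (sq_nonneg _)
      _ = C * (v : ∀ _, ℝ) y ^ 2 * t y := by ring
  have habs : ∀ x, Summable fun y => N x y * |(v : ∀ _, ℝ) y| := fun x => by
    refine summable_of_sum_le (fun y => mul_nonneg (h0 x y) (abs_nonneg _))
      (c := √(C * t x * ∑' y, N x y * ((v : ∀ _, ℝ) y ^ 2 / t y))) fun s => ?_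
    refine Real.le_sqrt_of_sq_le ((hCS x s).trans ?_)
    exact mul_le_mul_of_nonneg_left ((hv2 x).sum_le_tsum s fun y _ =>
      mul_nonneg (h0 x y) (div_nonneg (sq_nonneg _) (ht y).le)) (mul_nonneg hC (ht x).le)
  have hsum : ∀ x, Summable fun y => N x y * (v : ∀ _, ℝ) y := fun x =>
    .of_abs ((habs x).congr fun y => by rw [abs_mul, abs_of_nonneg (h0 x y)])
  let w : Y → ℝ := fun x => ∑' y, N x y * (v : ∀ _, ℝ) y
  have hbound : ∀ s : Finset Y, ∑ x ∈ s, w x ^ 2 ≤ C ^ 2 * ‖v‖ ^ 2 := fun s => by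
    have h1 : ∀ u : Finset Y,
        ∑ x ∈ s, (∑ y ∈ u, N x y * |(v : ∀ _, ℝ) y|) ^ 2 ≤ C ^ 2 * ‖v‖ ^ 2 := fun u => by
      calc ∑ x ∈ s, (∑ y ∈ u, N x y * |(v : ∀ _, ℝ) y|) ^ 2
          ≤ ∑ x ∈ s, C * t x * ∑ y ∈ u, N x y * ((v : ∀ _, ℝ) y ^ 2 / t y) :=
            Finset.sum_le_sum fun x _ => hCS x u
        _ = ∑ y ∈ u, C * ((v : ∀ _, ℝ) y ^ 2 / t y) * ∑ x ∈ s, N y x * t x := by
            simp only [Finset.mul_sum]
            rw [Finset.sum_comm]
            exact Finset.sum_congr rfl fun y _ => Finset.sum_congr rfl fun x _ => by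
              rw [hs x y]; ring
        _ ≤ ∑ y ∈ u, C * ((v : ∀ _, ℝ) y ^ 2 / t y) * (C * t y) :=
            Finset.sum_le_sum fun y _ => mul_le_mul_of_nonneg_left (hrow y s)
              (mul_nonneg hC (div_nonneg (sq_nonneg _) (ht y).le))
        _ = C ^ 2 * ∑ y ∈ u, (v : ∀ _, ℝ) y ^ 2 := by
            rw [Finset.mul_sum]
            refine Finset.sum_congr rfl fun y _ => ?_
            have := (ht y).ne'
            field_simp
        _ ≤ _ := mul_le_mul_of_nonneg_left (sum_sq_le v u) (sq_nonneg C)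
    have hlim : Tendsto (fun u : Finset Y => ∑ x ∈ s, (∑ y ∈ u, N x y * |(v : ∀ _, ℝ) y|) ^ 2)
        atTop (𝓝 (∑ x ∈ s, (∑' y, N x y * |(v : ∀ _, ℝ) y|) ^ 2)) :=
      tendsto_finsetSum s fun x _ => (habs x).hasSum.pow 2
    refine le_trans ?_ (le_of_tendsto' hlim h1)
    refine Finset.sum_le_sum fun x _ => ?_
    rw [← sq_abs (w x)]
    refine pow_le_pow_left₀ (abs_nonneg _) ?_ 2
    refine abs_le.2 ⟨?_, (hsum x).tsum_le_tsum (fun y =>
      mul_le_mul_of_nonneg_left (le_abs_self _) (h0 x y)) (habs x)⟩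
    rw [← tsum_neg]
    exact (habs x).neg.tsum_le_tsum (fun y => by
      rw [← mul_neg]
      exact mul_le_mul_of_nonneg_left (neg_abs_le _) (h0 x y)) (hsum x)
  have hw2 : Summable fun x => w x ^ 2 := summable_of_sum_le (fun x => sq_nonneg _) hbound
  have hmem : Memℓp w 2 := memℓp_gen (by
    refine hw2.congr fun x => ?_
    rw [show ((2 : ℝ≥0∞).toReal) = ((2 : ℕ) : ℝ) by norm_num, Real.rpow_natCast,
      Real.norm_eq_abs, sq_abs])
  refine ⟨⟨w, hmem⟩, fun x => (hsum x).hasSum, ?_⟩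
  refine (pow_le_pow_iff_left₀ (norm_nonneg _) (mul_nonneg hC (norm_nonneg v)) two_ne_zero).1 ?_
  rw [mul_pow]
  exact hasSum_le_of_sum_le (hasSum_sq (⟨w, hmem⟩ : H2 Y)) hbound

theorem exists_kernel_op {N : Y → Y → ℝ} (h0 : ∀ x y, 0 ≤ N x y) (hs : ∀ x y, N x y = N y x)
    {t : Y → ℝ} (ht : ∀ x, 0 < t x) {C : ℝ} (hC : 0 ≤ C)
    (hrow : ∀ x (s : Finset Y), ∑ y ∈ s, N x y * t y ≤ C * t x) :
    ∃ T : Endo Y, ‖T‖ ≤ C ∧
      ∀ (v : H2 Y) x, HasSum (fun y => N x y * (v : ∀ _, ℝ) y) ((T v : ∀ _, ℝ) x) := by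
  choose w hw hn using schur h0 hs ht hC hrow
  let f : H2 Y →ₗ[ℝ] H2 Y :=
    { toFun := w
      map_add' := fun u v => lp.ext (funext fun x => by
        refine (hw (u + v) x).unique ?_
        simpa [mul_add] using (hw u x).add (hw v x))
      map_smul' := fun c v => lp.ext (funext fun x => by
        refine (hw (c • v) x).unique ?_
        simpa [mul_left_comm] using (hw v x).mul_left c) }
  exact ⟨f.mkContinuous C hn, f.mkContinuous_norm_le hC hn, hw⟩

/-- Multiplication by a bounded function. -/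
theorem exists_mult_op (f : Y → ℝ) {C : ℝ} (hC : 0 ≤ C) (hf : ∀ x, |f x| ≤ C) :
    ∃ T : Endo Y, ‖T‖ ≤ C ∧ ∀ (v : H2 Y) x, (T v : ∀ _, ℝ) x = f x * (v : ∀ _, ℝ) x := by
  have hb : ∀ (v : H2 Y) (s : Finset Y),
      ∑ x ∈ s, (f x * (v : ∀ _, ℝ) x) ^ 2 ≤ C ^ 2 * ‖v‖ ^ 2 := fun v s => by
    refine le_trans ?_ (mul_le_mul_of_nonneg_left (sum_sq_le v s) (sq_nonneg C))
    rw [Finset.mul_sum]
    refine Finset.sum_le_sum fun x _ => ?_
    rw [mul_pow]
    refine mul_le_mul_of_nonneg_right ?_ (sq_nonneg _)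
    rw [← sq_abs (f x)]
    exact pow_le_pow_left₀ (abs_nonneg _) (hf x) 2
  have hmem : ∀ v : H2 Y, Memℓp (fun x => f x * (v : ∀ _, ℝ) x) 2 := fun v => memℓp_gen (by
    refine (summable_of_sum_le (fun x => sq_nonneg _) (hb v)).congr fun x => ?_
    rw [show ((2 : ℝ≥0∞).toReal) = ((2 : ℕ) : ℝ) by norm_num, Real.rpow_natCast,
      Real.norm_eq_abs, sq_abs])
  let T : H2 Y →ₗ[ℝ] H2 Y :=
    { toFun := fun v => ⟨_, hmem v⟩
      map_add' := fun u v => lp.ext (funext fun x => mul_add _ _ _)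
      map_smul' := fun c v => lp.ext (funext fun x => mul_left_comm _ _ _) }
  have hn : ∀ v, ‖T v‖ ≤ C * ‖v‖ := fun v => by
    refine (pow_le_pow_iff_left₀ (norm_nonneg _) (mul_nonneg hC (norm_nonneg v)) two_ne_zero).1 ?_
    rw [mul_pow]
    exact hasSum_le_of_sum_le (hasSum_sq (T v)) (hb v)
  exact ⟨T.mkContinuous C hn, T.mkContinuous_norm_le hC hn, fun v x => rfl⟩

end Vale.Agent.P078.Expected.Leverage
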