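import Vale.Agent.P078.Expected.Leverage.Defs

/-!
Mass transport along a measure preserving relation with countable classes, and measurability of
values of kernels along its maps.
-/

noncomputable section

open MeasureTheory
open scoped ENNReal

namespace Vale.Agent.P078.Expected.Leverage.Rel

universe u

variable {Y : Type u} [MeasurableSpace Y] {μ : Measure Y} (Rl : Rel μ)

theorem same_refl (x : Y) : Rl.Same x x := Rl.exists_refl x

theorem same_symm {x y : Y} (h : Rl.Same x y) : Rl.Same y x := by
  obtain ⟨k, hx, rfl⟩ := h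
  exact Rl.exists_symm k x hx

theorem same_trans {x y z : Y} (h : Rl.Same x y) (h' : Rl.Same y z) : Rl.Same x z := by
  obtain ⟨k, hx, rfl⟩ := h
  obtain ⟨l, hy, rfl⟩ := h'
  exact Rl.exists_comp k l x hx hy

/-- A map of the relation, extended by the identity. -/
def app (k : ℕ) (x : Y) : Y :=
  open Classical in if x ∈ (Rl.map k).source then Rl.map k x else x

theorem app_eq {k : ℕ} {x : Y} (h : x ∈ (Rl.map k).source) : Rl.app k x = Rl.map k x := by
  simp [app, h]

theorem same_app {k : ℕ} {x : Y} (h : x ∈ (Rl.map k).source) : Rl.Same x (Rl.app k x) :=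
  ⟨k, h, (Rl.app_eq h).symm⟩

open Classical in
theorem measurable_app (k : ℕ) : Measurable (Rl.app k) :=
  Measurable.dite (f := fun x : (Rl.map k).source => Rl.map k x) (g := fun x => (x : Y))
    (Rl.meas_map k) measurable_subtype_coe (Rl.meas_source k)

/-- The inverse of a map of the relation, extended by the identity. -/
def inv (k : ℕ) (y : Y) : Y :=
  open Classical in if y ∈ (Rl.map k).target then (Rl.map k).symm y else y

open Classical in
theorem measurable_inv (k : ℕ) : Measurable (Rl.inv k) :=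
  Measurable.dite (f := fun x : (Rl.map k).target => (Rl.map k).symm x) (g := fun x => (x : Y))
    (Rl.meas_symm k) measurable_subtype_coe (Rl.meas_target k)

theorem inv_eq {k : ℕ} {y : Y} (h : y ∈ (Rl.map k).target) :
    Rl.inv k y = (Rl.map k).symm y := by simp [inv, h]

/-- The points at which a map of the relation takes a value taken by no earlier map. -/
def first (k : ℕ) : Set Y :=
  {x | x ∈ (Rl.map k).source ∧
    ∀ l < k, ¬(x ∈ (Rl.map k).source ∧ x ∈ (Rl.map l).source ∧ Rl.map k x = Rl.map l x)}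

theorem measurableSet_first (k : ℕ) : MeasurableSet (Rl.first k) := by
  have : Rl.first k = (Rl.map k).source ∩ ⋂ l ∈ Set.Iio k,
      {x | x ∈ (Rl.map k).source ∧ x ∈ (Rl.map l).source ∧ Rl.map k x = Rl.map l x}ᶜ := by
    ext x
    simp only [first, Set.mem_ofPred_eq, Set.mem_inter_iff, Set.mem_iInter, Set.mem_Iio,
      Set.mem_compl_iff]
  rw [this]
  exact (Rl.meas_source k).inter
    (MeasurableSet.biInter (Set.to_countable _) fun l _ => (Rl.meas_eq k l).compl)

theorem first_subset (k : ℕ) : Rl.first k ⊆ (Rl.map k).source := fun _ h => h.1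

theorem exists_first {x y : Y} (h : Rl.Same x y) : ∃ k, x ∈ Rl.first k ∧ Rl.app k x = y := by
  classical
  have hex : ∃ k, x ∈ (Rl.map k).source ∧ Rl.map k x = y := h
  refine ⟨Nat.find hex, ⟨(Nat.find_spec hex).1, fun l hl hh => Nat.find_min hex hl ⟨hh.2.1, ?_⟩⟩, ?_⟩
  · rw [← hh.2.2, (Nat.find_spec hex).2]
  · rw [Rl.app_eq (Nat.find_spec hex).1, (Nat.find_spec hex).2]

theorem first_unique {x : Y} {k l : ℕ} (hk : x ∈ Rl.first k) (hl : x ∈ Rl.first l)
    (h : Rl.app k x = Rl.app l x) : k = l := by
  rw [Rl.app_eq hk.1, Rl.app_eq hl.1] at h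
  rcases lt_trichotomy k l with h' | h' | h'
  · exact absurd ⟨hl.1, hk.1, h.symm⟩ (hl.2 k h')
  · exact h'
  · exact absurd ⟨hk.1, hl.1, h⟩ (hk.2 l h')

open Classical in
/-- A sum over a class is a sum along the maps. -/
theorem tsum_class {α : Type*} [AddCommMonoid α] [TopologicalSpace α] {x : Y} {f : Y → α}
    (h : ∀ y, ¬Rl.Same x y → f y = 0) :
    ∑' y, f y = ∑' k, (Rl.first k).indicator (fun x' => f (Rl.app k x')) x := by
  refine tsum_eq_tsum_of_ne_zero_bij (fun k => Rl.app k.1 x) ?_ ?_ ?_
  · rintro ⟨k, hk⟩ ⟨l, hl⟩ hkl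
    exact Subtype.ext (Rl.first_unique (Set.mem_of_indicator_ne_zero hk)
      (Set.mem_of_indicator_ne_zero hl) hkl)
  · intro y hy
    have hs : Rl.Same x y := by_contra fun hc => hy (h y hc)
    obtain ⟨k, hk, rfl⟩ := Rl.exists_first hs
    refine ⟨⟨k, ?_⟩, rfl⟩
    rw [Function.mem_support, Set.indicator_of_mem hk]
    exact hy
  · rintro ⟨k, hk⟩
    rw [Set.indicator_of_mem (Set.mem_of_indicator_ne_zero hk)]

open Classical in
/-- A sum over a class is a sum along the inverse maps. -/
theorem tsum_class_inv {α : Type*} [AddCommMonoid α] [TopologicalSpace α] {y : Y} {f : Y → α}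
    (h : ∀ x, ¬Rl.Same x y → f x = 0) :
    ∑' x, f x = ∑' k, ((Rl.map k).target ∩ Rl.inv k ⁻¹' Rl.first k).indicator
      (fun y' => f (Rl.inv k y')) y := by
  refine tsum_eq_tsum_of_ne_zero_bij (fun k => Rl.inv k.1 y) ?_ ?_ ?_
  · rintro ⟨k, hk⟩ ⟨l, hl⟩ hkl
    obtain ⟨hkt, hkf⟩ := Set.mem_of_indicator_ne_zero hk
    obtain ⟨hlt, hlf⟩ := Set.mem_of_indicator_ne_zero hl
    have hkl' : Rl.inv k y = Rl.inv l y := hkl
    rw [Set.mem_preimage] at hkf hlf
    rw [← hkl'] at hlf
    have hl' : Rl.inv l y = (Rl.map l).symm y := Rl.inv_eq hlt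
    refine Subtype.ext (Rl.first_unique hkf hlf ?_)
    rw [Rl.app_eq (Rl.first_subset k hkf), Rl.app_eq (Rl.first_subset l hlf)]
    conv_rhs => rw [hkl', hl', PartialEquiv.right_inv _ hlt]
    rw [Rl.inv_eq hkt, PartialEquiv.right_inv _ hkt]
  · intro x hx
    have hs : Rl.Same x y := by_contra fun hc => hx (h x hc)
    obtain ⟨k, hk, hkx⟩ := Rl.exists_first hs
    have hyt : y ∈ (Rl.map k).target := by
      rw [← hkx, Rl.app_eq (Rl.first_subset k hk)]
      exact (Rl.map k).map_source (Rl.first_subset k hk)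
    have hix : Rl.inv k y = x := by
      rw [Rl.inv_eq hyt, ← hkx, Rl.app_eq (Rl.first_subset k hk),
        PartialEquiv.left_inv _ (Rl.first_subset k hk)]
    refine ⟨⟨k, ?_⟩, hix⟩
    have hmem : y ∈ (Rl.map k).target ∩ Rl.inv k ⁻¹' Rl.first k :=
      Set.mem_inter hyt (by rw [Set.mem_preimage, hix]; exact hk)
    rw [Function.mem_support, Set.indicator_of_mem hmem, hix]
    exact hx
  · rintro ⟨k, hk⟩
    rw [Set.indicator_of_mem (Set.mem_of_indicator_ne_zero hk)]

open Classical in
/-- A function of pairs supported on the classes and measurable along the maps. -/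
structure Meas {α : Type*} [MeasurableSpace α] [Zero α] (F : Y → Y → α) : Prop where
  supp : ∀ x y, ¬Rl.Same x y → F x y = 0
  meas : ∀ k, Measurable ((Rl.map k).source.indicator fun x => F x (Rl.app k x))

section Meas

variable {Rl}
variable {α β γ : Type*} [MeasurableSpace α] [MeasurableSpace β] [MeasurableSpace γ]
  [Zero α] [Zero γ]

theorem IsKernel.toMeas {N : Y → Y → ℝ} (h : Rl.IsKernel N) : Rl.Meas N := by
  classical
  refine ⟨h.supp, fun k => ?_⟩
  have := Measurable.dite (f := fun x : (Rl.map k).source => N x (Rl.map k x))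
    (g := fun _ => (0 : ℝ)) (h.meas k) measurable_const (Rl.meas_source k)
  convert this using 1
  funext x
  by_cases hx : x ∈ (Rl.map k).source <;> simp [hx, Rl.app_eq]

/-- A pointwise combination. -/
theorem Meas.map₂ [Zero β] {F : Y → Y → α} {G : Y → Y → β} (hF : Rl.Meas F) (hG : Rl.Meas G)
    {φ : α → β → γ} (hφ : Measurable φ.uncurry) (h0 : φ 0 0 = 0) :
    Rl.Meas fun x y => φ (F x y) (G x y) := by
  refine ⟨fun x y h => by simp [hF.supp x y h, hG.supp x y h, h0], fun k => ?_⟩
  have e : ((Rl.map k).source.indicator fun x => φ (F x (Rl.app k x)) (G x (Rl.app k x))) =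
      fun x => φ.uncurry ((Rl.map k).source.indicator (fun x => F x (Rl.app k x)) x,
        (Rl.map k).source.indicator (fun x => G x (Rl.app k x)) x) := by
    funext x
    by_cases hx : x ∈ (Rl.map k).source <;> simp [hx, h0]
  rw [e]
  exact hφ.comp ((hF.meas k).prodMk (hG.meas k))

theorem Meas.comp [Zero β] {F : Y → Y → α} (hF : Rl.Meas F) {φ : α → β} (hφ : Measurable φ)
    (h0 : φ 0 = 0) : Rl.Meas fun x y => φ (F x y) :=
  hF.map₂ hF (φ := fun a _ => φ a) (hφ.comp measurable_fst) h0

/-- Scaling by a function of the first point. -/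
theorem Meas.left {F : Y → Y → α} (hF : Rl.Meas F) {f : Y → β} (hf : Measurable f)
    {φ : β → α → γ} (hφ : Measurable φ.uncurry) (h0 : ∀ b, φ b 0 = 0) :
    Rl.Meas fun x y => φ (f x) (F x y) := by
  refine ⟨fun x y h => by simp [hF.supp x y h, h0], fun k => ?_⟩
  have e : ((Rl.map k).source.indicator fun x => φ (f x) (F x (Rl.app k x))) =
      fun x => φ.uncurry (f x, (Rl.map k).source.indicator (fun x => F x (Rl.app k x)) x) := by
    funext x
    by_cases hx : x ∈ (Rl.map k).source <;> simp [hx, h0]
  rw [e]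
  exact hφ.comp (hf.prodMk (hF.meas k))

/-- Scaling by a function of the second point. -/
theorem Meas.right {F : Y → Y → α} (hF : Rl.Meas F) {f : Y → β} (hf : Measurable f)
    {φ : β → α → γ} (hφ : Measurable φ.uncurry) (h0 : ∀ b, φ b 0 = 0) :
    Rl.Meas fun x y => φ (f y) (F x y) := by
  refine ⟨fun x y h => by simp [hF.supp x y h, h0], fun k => ?_⟩
  have e : ((Rl.map k).source.indicator fun x => φ (f (Rl.app k x)) (F x (Rl.app k x))) =
      fun x => φ.uncurry (f (Rl.app k x),
        (Rl.map k).source.indicator (fun x => F x (Rl.app k x)) x) := by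
    funext x
    by_cases hx : x ∈ (Rl.map k).source <;> simp [hx, h0]
  rw [e]
  exact hφ.comp ((hf.comp (Rl.measurable_app k)).prodMk (hF.meas k))

theorem Meas.measurable_first {F : Y → Y → α} (hF : Rl.Meas F) (k : ℕ) :
    Measurable ((Rl.first k).indicator fun x => F x (Rl.app k x)) := by
  have := (hF.meas k).indicator (Rl.measurableSet_first k)
  rwa [Set.indicator_indicator, Set.inter_eq_left.2 (Rl.first_subset k)] at this

end Meas

/-- Measurable pieces glued along countably many disjoint sets. -/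
theorem measurable_glue {α : Type*} [MeasurableSpace α] {g : Y → α} {c : α} (B : ℕ → Set Y)
    (hB : ∀ m, MeasurableSet (B m)) (f : ℕ → Y → α) (hf : ∀ m, Measurable (f m))
    (hin : ∀ m, ∀ x ∈ B m, g x = f m x) (hout : ∀ x, (∀ m, x ∉ B m) → g x = c) :
    Measurable g := by
  intro S hS
  classical
  have : g ⁻¹' S = (⋃ m, B m ∩ f m ⁻¹' S) ∪ ((⋃ m, B m)ᶜ ∩ if c ∈ S then Set.univ else ∅) := by
    ext x
    by_cases hx : ∃ m, x ∈ B m
    · obtain ⟨m, hm⟩ := hx
      simp only [Set.mem_preimage, Set.mem_union, Set.mem_iUnion, Set.mem_inter_iff,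
        Set.mem_compl_iff, hin m x hm]
      refine ⟨fun h => Or.inl ⟨m, hm, h⟩, ?_⟩
      rintro (⟨l, hl, h⟩ | ⟨h, -⟩)
      · rwa [← hin m x hm, hin l x hl]
      · exact absurd ⟨m, hm⟩ h
    · push Not at hx
      simp only [Set.mem_preimage, Set.mem_union, Set.mem_iUnion, Set.mem_inter_iff,
        Set.mem_compl_iff, hout x hx]
      split_ifs with hc <;> simp [hc, hx]
  rw [this]
  refine (MeasurableSet.iUnion fun m => (hB m).inter (hf m hS)).union
    ((MeasurableSet.iUnion hB).compl.inter ?_)
  split_ifs <;> simp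

/-- Values at two points of a class are measurable. -/
theorem Meas.measurable_pair {Rl : Rel μ} {α : Type*} [MeasurableSpace α] [Zero α]
    {F : Y → Y → α} (hF : Rl.Meas F) (k l : ℕ) :
    Measurable (((Rl.map k).source ∩ (Rl.map l).source).indicator
      fun x => F (Rl.app k x) (Rl.app l x)) := by
  refine measurable_glue (c := 0)
    (fun m => {x | x ∈ (Rl.map k).source ∧ Rl.map k x ∈ (Rl.map m).source ∧
      x ∈ (Rl.map l).source ∧ Rl.map m (Rl.map k x) = Rl.map l x})
    (fun m => Rl.meas_eq_comp k m l)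
    (fun m x => (Rl.map m).source.indicator (fun z => F z (Rl.app m z)) (Rl.app k x))
    (fun m => (hF.meas m).comp (Rl.measurable_app k)) ?_ ?_
  · rintro m x ⟨hk, hm, hl, he⟩
    rw [Set.indicator_of_mem (Set.mem_inter hk hl),
      Rl.app_eq hk, Set.indicator_of_mem hm, Rl.app_eq hm, Rl.app_eq hl, he]
  · intro x hx
    by_cases hkl : x ∈ (Rl.map k).source ∩ (Rl.map l).source
    · obtain ⟨m, hm, he⟩ := Rl.same_trans (Rl.same_symm (Rl.same_app hkl.1)) (Rl.same_app hkl.2)
      rw [Rl.app_eq hkl.1] at hm he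
      rw [Rl.app_eq hkl.2] at he
      exact absurd ⟨hkl.1, hm, hkl.2, he⟩ (hx m)
    · exact Set.indicator_of_notMem hkl _

/-- The fixed points of a map are measurable. -/
theorem measurableSet_fix (k : ℕ) :
    MeasurableSet {x | x ∈ (Rl.map k).source ∧ Rl.map k x = x} := by
  have : {x | x ∈ (Rl.map k).source ∧ Rl.map k x = x} = ⋃ l,
      {x | x ∈ (Rl.map k).source ∧ Rl.map k x ∈ (Rl.map l).source ∧
        x ∈ (Rl.map l).source ∧ Rl.map l (Rl.map k x) = Rl.map l x} := by
    ext x
    simp only [Set.mem_ofPred_eq, Set.mem_iUnion]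
    constructor
    · rintro ⟨hk, he⟩
      obtain ⟨l, hl, -⟩ := Rl.exists_refl x
      exact ⟨l, hk, by rwa [he], hl, by rw [he]⟩
    · rintro ⟨l, hk, hl, hl', he⟩
      exact ⟨hk, (Rl.map l).injOn hl hl' he⟩
  rw [this]
  exact MeasurableSet.iUnion fun l => Rl.meas_eq_comp k l l

theorem Meas.transpose {Rl : Rel μ} {α : Type*} [MeasurableSpace α] [Zero α]
    {F : Y → Y → α} (hF : Rl.Meas F) : Rl.Meas fun x y => F y x := by
  refine ⟨fun x y h => hF.supp y x fun hc => h (Rl.same_symm hc), fun k => ?_⟩
  refine measurable_glue (c := 0)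
    (fun l => (Rl.map k).source ∩ {x | x ∈ (Rl.map l).source ∧ Rl.map l x = x})
    (fun l => (Rl.meas_source k).inter (Rl.measurableSet_fix l))
    (fun l x => ((Rl.map k).source ∩ (Rl.map l).source).indicator
      (fun x => F (Rl.app k x) (Rl.app l x)) x)
    (fun l => hF.measurable_pair k l) ?_ ?_
  · rintro l x ⟨hk, hl, he⟩
    rw [Set.indicator_of_mem hk,
      Set.indicator_of_mem (Set.mem_inter hk hl),
      Rl.app_eq hl, he]
  · intro x hx
    by_cases hk : x ∈ (Rl.map k).source
    · obtain ⟨l, hl, he⟩ := Rl.exists_refl x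
      exact absurd ⟨hk, hl, he⟩ (hx l)
    · exact Set.indicator_of_notMem hk _

theorem Meas.diag {Rl : Rel μ} {α : Type*} [MeasurableSpace α] [Zero α] [DecidableEq Y]
    {f : Y → α} (hf : Measurable f) : Rl.Meas fun x y => if x = y then f x else 0 := by
  refine ⟨fun x y h => if_neg fun (hxy : x = y) => h (hxy ▸ Rl.same_refl x), fun k => ?_⟩
  have e : ((Rl.map k).source.indicator fun x => if x = Rl.app k x then f x else 0) =
      {x | x ∈ (Rl.map k).source ∧ Rl.map k x = x}.indicator f := by
    funext x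
    by_cases hk : x ∈ (Rl.map k).source
    · simp [Set.indicator, hk, Rl.app_eq hk, eq_comm]
    · simp [Set.indicator, hk]
  rw [e]
  exact hf.indicator (Rl.measurableSet_fix k)

theorem Meas.measurable_tsum {Rl : Rel μ} {F : Y → Y → ℝ≥0∞} (hF : Rl.Meas F) :
    Measurable fun x => ∑' y, F x y := by
  have e : (fun x => ∑' y, F x y) =
      fun x => ∑' k, (Rl.first k).indicator (fun x' => F x' (Rl.app k x')) x := funext fun x => by
    refine (Rl.tsum_class (hF.supp x)).trans (tsum_congr fun k => ?_)
    simp only [Set.indicator]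
  rw [e]
  exact Measurable.tsum fun k => hF.measurable_first k

/-- Mass transport. -/
theorem Meas.lintegral_tsum_comm {Rl : Rel μ} {F : Y → Y → ℝ≥0∞} (hF : Rl.Meas F) :
    ∫⁻ x, ∑' y, F x y ∂μ = ∫⁻ x, ∑' y, F y x ∂μ := by
  have e1 : (fun x => ∑' y, F x y) =
      fun x => ∑' k, (Rl.first k).indicator (fun x' => F x' (Rl.app k x')) x := funext fun x => by
    refine (Rl.tsum_class (hF.supp x)).trans (tsum_congr fun k => ?_)
    simp only [Set.indicator]
  have e2 : (fun x => ∑' y, F y x) =
      fun x => ∑' k, ((Rl.map k).target ∩ Rl.inv k ⁻¹' Rl.first k).indicator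
        (fun y => F (Rl.inv k y) y) x := funext fun x => by
    refine (Rl.tsum_class_inv (f := fun y => F y x) fun y h => hF.supp y x h).trans
      (tsum_congr fun k => ?_)
    simp only [Set.indicator]
  rw [e1, e2]
  have hT : ∀ k, MeasurableSet ((Rl.map k).target ∩ Rl.inv k ⁻¹' Rl.first k) := fun k =>
    (Rl.meas_target k).inter (Rl.measurable_inv k (Rl.measurableSet_first k))
  have hG : ∀ k, Measurable (((Rl.map k).target ∩ Rl.inv k ⁻¹' Rl.first k).indicator
      fun y => F (Rl.inv k y) y) := fun k => by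
    have e : ((Rl.map k).target ∩ Rl.inv k ⁻¹' Rl.first k).indicator
        (fun y => F (Rl.inv k y) y) = ((Rl.map k).target ∩ Rl.inv k ⁻¹' Rl.first k).indicator
        fun y => (Rl.map k).source.indicator (fun x => F x (Rl.app k x)) (Rl.inv k y) := by
      refine Set.indicator_congr ?_
      rintro y ⟨ht, hf⟩
      have hs : Rl.inv k y ∈ (Rl.map k).source := Rl.first_subset k hf
      simp only [Set.indicator_of_mem hs, Rl.app_eq hs]
      congr 1
      rw [Rl.inv_eq ht, PartialEquiv.right_inv _ ht]
    rw [e]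
    exact ((hF.meas k).comp (Rl.measurable_inv k)).indicator (hT k)
  rw [lintegral_tsum fun k => (hF.measurable_first k).aemeasurable,
    lintegral_tsum fun k => (hG k).aemeasurable]
  refine tsum_congr fun k => ?_
  set T := (Rl.map k).target ∩ Rl.inv k ⁻¹' Rl.first k with hTdef
  have h := Rl.preserves k _ (hG k)
  have hl : ∫⁻ x in (Rl.map k).source, T.indicator (fun y => F (Rl.inv k y) y) (Rl.map k x) ∂μ =
      ∫⁻ x, (Rl.first k).indicator (fun x => F x (Rl.app k x)) x ∂μ := by
    rw [← lintegral_indicator (Rl.meas_source k)]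
    refine lintegral_congr fun x => ?_
    by_cases hx : x ∈ (Rl.map k).source
    · have ht : Rl.map k x ∈ (Rl.map k).target := (Rl.map k).map_source hx
      have hi : Rl.inv k (Rl.map k x) = x := by
        rw [Rl.inv_eq ht, PartialEquiv.left_inv _ hx]
      rw [Set.indicator_of_mem hx]
      by_cases hf : x ∈ Rl.first k
      · rw [Set.indicator_of_mem hf, Set.indicator_of_mem
          (show Rl.map k x ∈ T from Set.mem_inter ht (by rw [Set.mem_preimage, hi]; exact hf)),
          hi, Rl.app_eq hx]
      · rw [Set.indicator_of_notMem hf, Set.indicator_of_notMem]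
        exact fun hc => hf (hi ▸ hc.2)
    · rw [Set.indicator_of_notMem hx, Set.indicator_of_notMem fun hf => hx (Rl.first_subset k hf)]
  rw [← hl, h, ← lintegral_indicator (Rl.meas_target k), Set.indicator_indicator,
    Set.inter_eq_right.2 (Set.inter_subset_left)]

/-- Matrix products along the classes. -/
theorem Meas.tsum_mul {Rl : Rel μ} {F G : Y → Y → ℝ} (hF : Rl.Meas F) (hG : Rl.Meas G)
    (hs : ∀ x y, Summable fun z => F x z * G z y) :
    Rl.Meas fun x y => ∑' z, F x z * G z y := by
  classical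
  refine ⟨fun x y h => ?_, fun k => ?_⟩
  · refine (tsum_congr fun z => ?_).trans tsum_zero
    by_cases hxz : Rl.Same x z
    · rw [hG.supp z y fun hzy => h (Rl.same_trans hxz hzy), mul_zero]
    · rw [hF.supp x z hxz, zero_mul]
  let g : ℕ → Y → ℝ := fun l x => (Rl.first l).indicator (fun x => F x (Rl.app l x)) x *
    ((Rl.map l).source ∩ (Rl.map k).source).indicator
      (fun x => G (Rl.app l x) (Rl.app k x)) x
  have hg : ∀ l, Measurable (g l) := fun l =>
    (hF.measurable_first l).mul (hG.measurable_pair l k)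
  have hsum : ∀ x, Summable fun l => g l x := fun x => by
    by_cases hk : x ∈ (Rl.map k).source
    · let ι := {l : ℕ // x ∈ Rl.first l}
      let e' : ι → Y := fun l => Rl.app l.1 x
      have hinj : Function.Injective e' := fun l l' e =>
        Subtype.ext (Rl.first_unique l.2 l'.2 e)
      have h1 : Summable fun l : ι => F x (e' l) * G (e' l) (Rl.app k x) :=
        (hs x (Rl.app k x)).comp_injective hinj
      have h2 : Summable fun l : ι => g l.1 x := by
        refine h1.congr fun l => ?_
        simp only [g, e', Set.indicator_of_mem l.2,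
          Set.indicator_of_mem (Set.mem_inter (Rl.first_subset l.1 l.2) hk)]
      refine (Function.Injective.summable_iff (f := fun l => g l x)
        (Subtype.val_injective (p := fun l => x ∈ Rl.first l)) fun l hl => ?_).1 h2
      have hl' : x ∉ Rl.first l := fun h => hl ⟨⟨l, h⟩, rfl⟩
      simp only [g, Set.indicator_of_notMem hl', zero_mul]
    · exact summable_zero.congr fun l => by simp [g, hk]
  have e : ((Rl.map k).source.indicator fun x => ∑' z, F x z * G z (Rl.app k x)) =
      fun x => ∑' l, g l x := by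
    funext x
    by_cases hk : x ∈ (Rl.map k).source
    · rw [Set.indicator_of_mem hk, Rl.tsum_class (x := x) fun z hz => by
        rw [hF.supp x z hz, zero_mul]]
      refine tsum_congr fun l => ?_
      by_cases hl : x ∈ Rl.first l
      · simp [g, hl, Rl.first_subset l hl, hk]
      · simp [g, hl]
    · rw [Set.indicator_of_notMem hk]
      exact ((tsum_congr fun l => by simp [g, hk]).trans tsum_zero).symm
  rw [e]
  exact measurable_of_tendsto_metrizable
    (fun n => Finset.measurable_sum (Finset.range n) fun l _ => hg l)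
    (tendsto_pi_nhds.2 fun x => by
      simpa only [Finset.sum_apply] using (hsum x).hasSum.tendsto_sum_nat)

end Vale.Agent.P078.Expected.Leverage.Rel
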