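import Vale.Agent.P078.Expected.Leverage.Colours

/-!
Splitting the leverage along a restricted inverse: the part inside the set and the remaining part,
whose total over a class is bounded by the number of points outside the set.
-/

noncomputable section

open MeasureTheory Filter Topology
open scoped ENNReal lp RealInnerProductSpace

namespace Vale.Agent.P078.Expected.Leverage

universe u

variable {Y : Type u} {r : ℕ}

theorem star_pow_of_sa {a : Endo Y} (ha : IsSelfAdjoint a) (m : ℕ) : star (a ^ m) = a ^ m := by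
  rw [star_pow, ha.star_eq]

theorem inner_pow_even {a : Endo Y} (ha : IsSelfAdjoint a) (m : ℕ) (w : H2 Y) :
    ⟪w, (a ^ (2 * m)) w⟫ = ‖(a ^ m) w‖ ^ 2 := by
  rw [two_mul, pow_add, mul_apply_eq_comp, ← inner_star_left, star_pow_of_sa ha,
    real_inner_self_eq_norm_sq]

theorem inner_pow_odd {a : Endo Y} (ha : IsSelfAdjoint a) (m : ℕ) (w : H2 Y) :
    ⟪w, (a ^ (2 * m + 1)) w⟫ = ⟪(a ^ m) w, a ((a ^ m) w)⟫ := by
  rw [show 2 * m + 1 = m + (1 + m) by omega, pow_add, pow_add, pow_one, mul_apply_eq_comp,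
    mul_apply_eq_comp, ← inner_star_left, star_pow_of_sa ha]

/-- The truncated inverse is below the inverse. -/
theorem neum_form_le {G : Endo Y} (hG : IsSelfAdjoint G) {c : ℝ} (hc : 0 < c)
    (hhi : ∀ v, ⟪v, G v⟫ ≤ c * ‖v‖ ^ 2) (n : ℕ) (w : H2 Y) :
    ⟪neum G c n w, G (neum G c n w)⟫ ≤ ⟪w, neum G c n w⟫ := by
  set b : Endo Y := 1 - c⁻¹ • G with hb
  set h : Endo Y := neum G c n with hh
  have hbs : IsSelfAdjoint b := (IsSelfAdjoint.one _).sub ((IsSelfAdjoint.all c⁻¹).smul hG)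
  have hbpos : ∀ v, 0 ≤ ⟪v, b v⟫ := fun v => by
    have h1 := mul_le_mul_of_nonneg_left (hhi v) (inv_nonneg.2 hc.le)
    rw [← mul_assoc, inv_mul_cancel₀ hc.ne', one_mul] at h1
    simp only [hb, sub_apply, one_apply_eq_self, smul_apply, inner_sub_right,
      real_inner_smul_right, real_inner_self_eq_norm_sq]
    linarith
  have hpow : ∀ k v, 0 ≤ ⟪v, (b ^ k) v⟫ := fun k v => by
    obtain ⟨m, rfl | rfl⟩ := Nat.even_or_odd' k
    · rw [inner_pow_even hbs]; positivity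
    · rw [inner_pow_odd hbs]; exact hbpos _
  have hhs : IsSelfAdjoint h := by
    rw [hh, neum]
    exact (IsSelfAdjoint.all c⁻¹).smul (by
      rw [IsSelfAdjoint, star_sum]
      exact Finset.sum_congr rfl fun k _ => star_pow_of_sa hbs k)
  have e : h - h * G * h = c⁻¹ • ∑ k ∈ Finset.range n, b ^ (k + n) := by
    have hGh : G * h = 1 - b ^ n := by
      have hG' : G = c • (1 - b) := by
        rw [hb, sub_sub_cancel, smul_smul, mul_inv_cancel₀ hc.ne', one_smul]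
      rw [hh, neum, ← hb]
      conv_lhs => rw [hG']
      rw [smul_mul_smul_comm, mul_inv_cancel₀ hc.ne', one_smul, mul_neg_geom_sum]
    rw [mul_assoc, hGh, mul_sub, mul_one, sub_sub_cancel, hh, neum, ← hb, smul_mul_assoc,
      Finset.sum_mul]
    simp only [← pow_add]
  have h0 : 0 ≤ ⟪w, (h - h * G * h) w⟫ := by
    rw [e, smul_apply, real_inner_smul_right, sum_apply, inner_sum]
    exact mul_nonneg (inv_nonneg.2 hc.le) (Finset.sum_nonneg fun k _ => hpow _ w)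
  rw [sub_apply, inner_sub_right, mul_apply_eq_comp, mul_apply_eq_comp,
    ← inner_comm_of_sa hhs w (G (h w))] at h0
  linarith

/-- The data of the remaining part. -/
structure Rest (E : Endo Y) (T : Fin r → Endo Y) (G S : Endo Y) (a : Endo Y) (s : ℝ) : Prop where
  s_pos : 0 < s
  a_sa : IsSelfAdjoint a
  le : ∀ m v, (∑ j, ‖star (T j - G * S * T j) ((a ^ m) v)‖ ^ 2) * s ≤
    ‖(a ^ m) v‖ ^ 2 - ‖(a ^ (m + 1)) v‖ ^ 2
  zero : ∀ m v, E v = v → ∀ j, star (T j - G * S * T j) ((a ^ m) v) = 0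
  split : ∀ {c : ℝ}, 0 < c → (∀ v, ⟪v, G v⟫ ≤ c * ‖v‖ ^ 2) → ∀ (n : ℕ) (w : H2 Y),
    ENNReal.ofReal ⟪w, neum G c n w⟫ ≤ 2 * ENNReal.ofReal ⟪S w, G (S w)⟫ +
      2 * ∑' m : ℕ, ENNReal.ofReal (2 * s * ‖(a ^ m) (w - G (S w))‖ ^ 2)

theorem split_le {G M K a S : Endo Y} {s : ℝ} (hs : 0 < s) (hGs : IsSelfAdjoint G)
    (hGpos : ∀ v, 0 ≤ ⟪v, G v⟫) (hMs : IsSelfAdjoint M) (hMpos : ∀ v, 0 ≤ ⟪v, M v⟫)
    (hMG : ∀ v, ⟪v, M v⟫ ≤ ⟪v, G v⟫) (hMK : M * K = 1) (has : IsSelfAdjoint a)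
    (ha1 : ∀ v, ⟪v, a v⟫ ≤ ‖v‖ ^ 2) (hKs : HasSum (fun k => s • a ^ k) K)
    {c : ℝ} (hc : 0 < c) (hhi : ∀ v, ⟪v, G v⟫ ≤ c * ‖v‖ ^ 2) (n : ℕ) (w : H2 Y) :
    ENNReal.ofReal ⟪w, neum G c n w⟫ ≤ 2 * ENNReal.ofReal ⟪S w, G (S w)⟫ +
      2 * ∑' m : ℕ, ENNReal.ofReal (2 * s * ‖(a ^ m) (w - G (S w))‖ ^ 2) := by
  set z := neum G c n w with hz
  set y := S w with hy
  set u := w - G y with hu
  have h0 := neum_form_le hGs hc hhi n w
  rw [← hz] at h0
  have hw : ⟪w, z⟫ = ⟪G y, z⟫ + ⟪u, z⟫ := by rw [← inner_add_left, hu, add_sub_cancel]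
  have hy2 : 0 ≤ ⟪(2 : ℝ) • y - z, G ((2 : ℝ) • y - z)⟫ :=
    hGpos _
  have hzy : ⟪z, G y⟫ = ⟪G y, z⟫ := real_inner_comm _ _
  have hyz : ⟪y, G z⟫ = ⟪G y, z⟫ := (inner_comm_of_sa hGs _ _).symm
  simp only [map_sub, map_smul, inner_sub_left, inner_sub_right, inner_smul_left,
    inner_smul_right, conj_trivial, hzy, hyz] at hy2
  have hu2 : 2 * ⟪u, z⟫ - 1 / 2 * ⟪z, G z⟫ ≤ 2 * ⟪u, K u⟫ := by
    set g := K u with hg
    have hMg : M g = u := by rw [hg, ← mul_apply_eq_comp M K, hMK, one_apply_eq_self]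
    have h1 := hMpos ((2 : ℝ) • g - z)
    have hgz : ⟪g, M z⟫ = ⟪u, z⟫ := by rw [← inner_comm_of_sa hMs, hMg]
    have hzg : ⟪z, u⟫ = ⟪u, z⟫ := real_inner_comm _ _
    have hgu : ⟪g, u⟫ = ⟪u, g⟫ := real_inner_comm _ _
    simp only [map_sub, map_smul, inner_sub_left, inner_sub_right, inner_smul_left,
      inner_smul_right, conj_trivial, hgz, hMg, hzg, hgu] at h1
    have := hMG z
    linarith
  have hlow : ⟪w, z⟫ ≤ 2 * ⟪y, G y⟫ + 2 * ⟪u, K u⟫ := by linarith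
  have hK : ENNReal.ofReal ⟪u, K u⟫ ≤
      ∑' m : ℕ, ENNReal.ofReal (2 * s * ‖(a ^ m) u‖ ^ 2) := by
    have hev : Tendsto (fun N => ∑ k ∈ Finset.range (2 * N), ⟪u, (s • a ^ k) u⟫) atTop
        (𝓝 ⟪u, K u⟫) := by
      have h1 := ((hKs.mapL (ContinuousLinearMap.apply ℝ (H2 Y) u)).mapL
        (innerSL ℝ u)).tendsto_sum_nat
      exact h1.comp (tendsto_id.const_mul_atTop' two_pos)
    refine le_of_tendsto' ((ENNReal.continuous_ofReal.tendsto _).comp hev) fun N => ?_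
    refine le_trans ?_ (ENNReal.sum_le_tsum (Finset.range N))
    simp only [Function.comp_apply]
    rw [← ENNReal.ofReal_sum_of_nonneg fun m _ => by
      have := hs.le; positivity]
    refine ENNReal.ofReal_le_ofReal ?_
    induction N with
    | zero => simp
    | succ N ih =>
      rw [show 2 * (N + 1) = 2 * N + 1 + 1 by ring, Finset.sum_range_succ,
        Finset.sum_range_succ, Finset.sum_range_succ, smul_apply, smul_apply,
        real_inner_smul_right, real_inner_smul_right, inner_pow_even has, inner_pow_odd has]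
      have h1 := mul_le_mul_of_nonneg_left (ha1 ((a ^ N) u)) (hs.le)
      linarith
  refine (ENNReal.ofReal_le_ofReal hlow).trans (ENNReal.ofReal_add_le.trans ?_)
  rw [ENNReal.ofReal_mul zero_le_two, ENNReal.ofReal_mul zero_le_two, ENNReal.ofReal_ofNat]
  gcongr

theorem exists_rest [MeasurableSpace Y] {μ : Measure Y} (Rl : Rel μ) {E : Endo Y}
    (hE : IsSelfAdjoint E) {T : Fin r → Endo Y} {G S : Endo Y}
    (hG : G = ∑ j, T j * star (T j)) {ε : ℝ} (hε : 0 < ε) (hlo : ∀ v, ε * ‖v‖ ^ 2 ≤ ⟪v, G v⟫)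
    (hS : IsSelfAdjoint S) (hES : E * S = S) (hinv : E * G * S = E)
    (hTop : ∀ j, Rl.IsOp (T j)) (hSop : Rl.IsOp S) :
    ∃ a : Endo Y, ∃ s : ℝ, Rest E T G S a s ∧ Rl.IsOp a := by
  have hGs : IsSelfAdjoint G := by
    rw [hG, IsSelfAdjoint, star_sum]
    exact Finset.sum_congr rfl fun j _ => by rw [star_mul, star_star]
  set U : Fin r → Endo Y := fun j => T j - G * S * T j with hU
  set X : Endo Y := ∑ j, U j * star (U j) with hX
  have hXs : IsSelfAdjoint X := by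
    rw [hX, IsSelfAdjoint, star_sum]
    exact Finset.sum_congr rfl fun j _ => by rw [star_mul, star_star]
  have hEU : ∀ j, E * U j = 0 := fun j => by
    simp only [hU, mul_sub, ← mul_assoc, hinv, sub_self]
  have hUE : ∀ j v, E v = v → star (U j) v = 0 := fun j v hv => by
    rw [← hv, ← mul_apply_eq_comp, ← hE.star_eq, ← star_mul, hEU, star_zero, zero_apply]
  have hXpos : ∀ v, 0 ≤ ⟪v, X v⟫ := fun v => by
    rw [hX, inner_sum_mul_star]
    exact Finset.sum_nonneg fun j _ => sq_nonneg _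
  have hXG : ∀ v, ⟪v, X v⟫ ≤ ⟪v, G v⟫ := fun v => by
    set p := S (G v) with hp
    set v' := v - p with hv'
    have h1 : ∀ j, star (U j) v = star (T j) v' := fun j => by
      simp [hU, hv', hp, star_sub, star_mul, hGs.star_eq, hS.star_eq]
    have e1 : ⟪v, X v⟫ = ⟪v', G v'⟫ := by
      rw [hX, hG, inner_sum_mul_star, inner_sum_mul_star]
      exact Finset.sum_congr rfl fun j _ => by rw [h1]
    have hpE : E p = p := by rw [hp, ← mul_apply_eq_comp E S, hES]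
    have hEG : E (G v') = 0 := by
      rw [hv', map_sub, map_sub, hp, ← mul_apply_eq_comp E G, ← mul_apply_eq_comp E G,
        ← mul_apply_eq_comp (E * G) S, hinv, mul_apply_eq_comp, sub_self]
    have h2 : ⟪p, G v'⟫ = 0 := by
      rw [← hpE, inner_comm_of_sa hE, hEG, inner_zero_right]
    have h3 : ⟪v', G p⟫ = 0 := by rw [← inner_comm_of_sa hGs, real_inner_comm, h2]
    have h4 : 0 ≤ ⟪p, G p⟫ := le_trans (mul_nonneg hε.le (sq_nonneg _)) (hlo p)
    have e2 : ⟪v, G v⟫ = ⟪v', G v'⟫ + ⟪p, G p⟫ := by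
      conv_lhs => rw [show v = v' + p by rw [hv', sub_add_cancel]]
      simp only [map_add, inner_add_left, inner_add_right, h2, h3]
      ring
    linarith
  set M : Endo Y := (2 / 3 : ℝ) • X + (ε / 3) • (1 : Endo Y) with hM
  have hMs : IsSelfAdjoint M :=
    ((IsSelfAdjoint.all (2 / 3 : ℝ)).smul hXs).add
      ((IsSelfAdjoint.all (ε / 3)).smul (IsSelfAdjoint.one _))
  have hMv : ∀ v, ⟪v, M v⟫ = 2 / 3 * ⟪v, X v⟫ + ε / 3 * ‖v‖ ^ 2 := fun v => by
    simp only [hM, add_apply, smul_apply, one_apply_eq_self, inner_add_right,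
      real_inner_smul_right, real_inner_self_eq_norm_sq]
  have hMpos : ∀ v, 0 ≤ ⟪v, M v⟫ := fun v => by
    rw [hMv]; have := hXpos v; positivity
  have hMG : ∀ v, ⟪v, M v⟫ ≤ ⟪v, G v⟫ := fun v => by
    rw [hMv]; linarith [hXG v, hlo v]
  set κ : ℝ := 2 * ‖M‖ + ε with hκdef
  have hκ : 0 < κ := by positivity
  set a : Endo Y := 1 - κ⁻¹ • M with ha
  have has : IsSelfAdjoint a := (IsSelfAdjoint.one _).sub ((IsSelfAdjoint.all κ⁻¹).smul hMs)
  have hnorm : ‖a‖ < 1 := by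
    refine norm_one_sub_lt hMs (ε := ε / 3) (by positivity)
      (by linarith [norm_nonneg M]) (fun v => ?_) fun v => ?_
    · rw [hMv]; linarith [hXpos v]
    · refine (real_inner_le_norm _ _).trans ?_
      refine (mul_le_mul_of_nonneg_left (M.le_opNorm v) (norm_nonneg v)).trans ?_
      nlinarith [norm_nonneg M, sq_nonneg ‖v‖]
  obtain ⟨K, hKs, hMK, -⟩ := hasSum_neumann hκ hnorm
  have ha1 : ∀ v, ⟪v, a v⟫ ≤ ‖v‖ ^ 2 := fun v => by
    simp only [ha, sub_apply, one_apply_eq_self, smul_apply, inner_sub_right,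
      real_inner_smul_right, real_inner_self_eq_norm_sq]
    linarith [mul_nonneg (inv_nonneg.2 hκ.le) (hMpos v)]
  have hdec : ∀ v, ⟪v, X v⟫ * κ⁻¹ ≤ ‖v‖ ^ 2 - ‖a v‖ ^ 2 := fun v => by
    have h1 := norm_sq_le_form hMs hMpos v
    have h2 : ‖a v‖ ^ 2 = ‖v‖ ^ 2 - 2 * (κ⁻¹ * ⟪v, M v⟫) + κ⁻¹ ^ 2 * ‖M v‖ ^ 2 := by
      simp only [ha, sub_apply, one_apply_eq_self, smul_apply]
      rw [norm_sub_sq_real, real_inner_smul_right, norm_smul, mul_pow, Real.norm_eq_abs, sq_abs]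
    have h3 : κ⁻¹ * ‖M v‖ ^ 2 ≤ 1 / 2 * ⟪v, M v⟫ := by
      rw [inv_mul_le_iff₀ hκ]
      nlinarith [mul_nonneg hε.le (hMpos v)]
    have h4 := mul_le_mul_of_nonneg_left h3 (inv_nonneg.2 hκ.le)
    have h5 : κ⁻¹ * ⟪v, X v⟫ ≤ 3 / 2 * (κ⁻¹ * ⟪v, M v⟫) := by
      rw [hMv]
      nlinarith [mul_nonneg (mul_nonneg (inv_nonneg.2 hκ.le) hε.le) (sq_nonneg ‖v‖)]
    nlinarith
  refine ⟨a, κ⁻¹, ⟨inv_pos.2 hκ, has, fun m v => ?_, fun m v hv j => ?_, fun {c} hc hhi n w => ?_⟩,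
    ?_⟩
  · rw [pow_succ' a m, mul_apply_eq_comp, ← inner_sum_mul_star]
    exact hdec _
  · have hfix : ∀ m, ∃ t : ℝ, (a ^ m) v = t • v := fun m => by
      induction m with
      | zero => exact ⟨1, by simp⟩
      | succ m ih =>
        obtain ⟨t, ht⟩ := ih
        have hXv : X v = 0 := by
          simp [hX, hUE _ v hv]
        refine ⟨t * (1 - κ⁻¹ * (ε / 3)), ?_⟩
        rw [pow_succ', mul_apply_eq_comp, ht]
        simp only [ha, hM, map_smul, sub_apply, one_apply_eq_self, smul_apply, add_apply, hXv,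
          smul_zero, zero_add, smul_smul, sub_smul, mul_sub]
        module
    obtain ⟨t, ht⟩ := hfix m
    rw [ht, map_smul, show T j - G * S * T j = U j from rfl, hUE j v hv, smul_zero]
  · exact split_le (inv_pos.2 hκ) hGs (fun v => le_trans (mul_nonneg hε.le (sq_nonneg _)) (hlo v))
      hMs hMpos hMG hMK has ha1 hKs hc hhi n w
  · have hGop : Rl.IsOp G := hG ▸ Rel.IsOp.sum Finset.univ fun i _ => (hTop i).mul (hTop i).star
    have hUop : ∀ j, Rl.IsOp (U j) := fun j => (hTop j).sub ((hGop.mul hSop).mul (hTop j))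
    have hXop : Rl.IsOp X := Rel.IsOp.sum Finset.univ fun j _ => (hUop j).mul (hUop j).star
    exact (Rel.IsOp.one).sub (((hXop.smul _).add ((Rel.IsOp.one).smul _)).smul _)

/-- The part inside the set is at most the cost of any representation. -/
theorem inner_green_le {E : Endo Y} (hE : IsSelfAdjoint E) {T : Fin r → Endo Y} {G S : Endo Y}
    (hG : G = ∑ j, T j * star (T j)) (hES : E * S = S) (hinv : E * G * S = E) {w : H2 Y}
    {y : Fin r → H2 Y} (hy : E (∑ i, T i (y i)) = E w) :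
    ⟪S w, G (S w)⟫ ≤ ∑ i, ‖y i‖ ^ 2 := by
  set p := S w with hp
  have hpE : E p = p := by rw [hp, ← mul_apply_eq_comp E S, hES]
  have h1 : ⟪p, G p⟫ = ∑ i, ⟪star (T i) p, y i⟫ := by
    rw [show ⟪p, G p⟫ = ⟪E p, G p⟫ by rw [hpE]]
    rw [inner_comm_of_sa hE, hp, ← mul_apply_eq_comp E G, ← mul_apply_eq_comp (E * G) S, hinv,
      ← hy, ← inner_comm_of_sa hE, ← hp, hpE, inner_sum]
    exact Finset.sum_congr rfl fun i _ => (inner_star_left _ _ _).symm
  have h2 : ⟪p, G p⟫ = ∑ i, ‖star (T i) p‖ ^ 2 := by rw [hG, inner_sum_mul_star]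
  have h3 : ∀ i, 2 * ⟪star (T i) p, y i⟫ ≤ ‖star (T i) p‖ ^ 2 + ‖y i‖ ^ 2 := fun i => by
    have h := norm_sub_sq_real (star (T i) p) (y i)
    linarith [sq_nonneg ‖star (T i) p - y i‖]
  have h4 := Finset.sum_le_sum (s := Finset.univ) fun i _ => h3 i
  rw [← Finset.mul_sum, Finset.sum_add_distrib, ← h1, ← h2] at h4
  linarith

end Vale.Agent.P078.Expected.Leverage
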